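import Mathlib

/-! # Harmonic polynomials: decomposition and dimension count -/

namespace Vale.Agent.P225

open MvPolynomial Finset

variable {n : ℕ}

/-- Polynomials in `n` variables. -/
abbrev Poly (n : ℕ) : Type := MvPolynomial (Fin n) ℝ

/-- The algebraic Laplacian. -/
noncomputable def plap (n : ℕ) : Poly n →ₗ[ℝ] Poly n :=
  ∑ i : Fin n, (pderiv i).toLinearMap.comp (pderiv i).toLinearMap

theorem plap_apply (p : Poly n) : plap n p = ∑ i : Fin n, pderiv i (pderiv i p) := by
  simp [plap, LinearMap.sum_apply]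

/-- The sum of the squares of the variables. -/
noncomputable def psq (n : ℕ) : Poly n := ∑ i : Fin n, X i ^ 2

theorem psq_isHomogeneous : (psq n).IsHomogeneous 2 := by
  refine IsHomogeneous.sum _ _ _ fun i _ => ?_
  simpa using (isHomogeneous_X ℝ i).pow 2

theorem pderiv_psq (i : Fin n) : pderiv i (psq n) = 2 * X i := by
  simp [psq, map_sum, pderiv_pow, pderiv_X, Pi.single_apply, Finset.sum_ite_eq', mul_comm]

theorem plap_psq_mul {l : ℕ} {p : Poly n} (hp : p.IsHomogeneous l) :
    plap n (psq n * p) = ((2 * n + 4 * l : ℕ) : ℝ) • p + psq n * plap n p := by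
  have hE := hp.sum_X_mul_pderiv
  have h2 : ∀ i : Fin n, pderiv i (pderiv i (psq n * p))
      = 2 * p + 4 * (X i * pderiv i p) + psq n * pderiv i (pderiv i p) := by
    intro i
    have h2' : pderiv i (2 : Poly n) = 0 := by
      exact_mod_cast Derivation.map_natCast (pderiv i) 2
    simp only [pderiv_mul, pderiv_psq, map_add, pderiv_X_self, h2']
    ring
  rw [plap_apply, plap_apply, Finset.sum_congr rfl (fun i _ => h2 i)]
  simp only [Finset.sum_add_distrib, ← Finset.mul_sum, hE, Finset.sum_const, card_univ,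
    Fintype.card_fin, nsmul_eq_mul, smul_eq_C_mul]
  push_cast
  simp only [map_add, map_mul, map_natCast, map_ofNat]
  ring

theorem plap_isHomogeneous {l : ℕ} {p : Poly n} (hp : p.IsHomogeneous l) :
    (plap n p).IsHomogeneous (l - 2) := by
  rw [plap_apply]
  refine IsHomogeneous.sum _ _ _ fun i _ => ?_
  exact (hp.pderiv.pderiv : (pderiv i (pderiv i p)).IsHomogeneous (l - 1 - 1))

theorem plap_eq_zero_of_lt {l : ℕ} (hl : l < 2) {p : Poly n} (hp : p.IsHomogeneous l) :
    plap n p = 0 := by
  rw [plap_apply]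
  refine Finset.sum_eq_zero fun i _ => ?_
  have h0 : (pderiv i p).IsHomogeneous 0 := by
    have h := hp.pderiv (i := i)
    have : l - 1 = 0 := by omega
    rwa [this] at h
  rw [← totalDegree_zero_iff_isHomogeneous, totalDegree_eq_zero_iff_eq_C] at h0
  rw [h0, pderiv_C]

theorem smul_add_psq_mul_eq_zero : ∀ (l : ℕ) (c : ℝ), 0 < c → ∀ p : Poly n, p.IsHomogeneous l →
    c • p + psq n * plap n p = 0 → p = 0 := by
  intro l
  induction l using Nat.strong_induction_on with
  | _ l ih =>
    intro c hc p hp h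
    by_cases hl : l < 2
    · rw [plap_eq_zero_of_lt hl hp] at h
      simpa [hc.ne'] using h
    · set q := plap n p with hq
      have hqh : q.IsHomogeneous (l - 2) := plap_isHomogeneous hp
      have h1 : plap n (c • p + psq n * q) = 0 := by rw [h, map_zero]
      rw [map_add, map_smul, ← hq, plap_psq_mul hqh, ← add_assoc, ← add_smul] at h1
      have hq0 : q = 0 := ih (l - 2) (by omega) _ (by positivity) q hqh h1
      rw [hq0] at h
      simpa [hc.ne'] using h

/-- Homogeneous polynomials of degree `l`. -/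
abbrev Hom (n l : ℕ) : Submodule ℝ (Poly n) := homogeneousSubmodule (Fin n) ℝ l

/-- Harmonic homogeneous polynomials of degree `l`. -/
noncomputable def Harm (n l : ℕ) : Submodule ℝ (Poly n) := Hom n l ⊓ LinearMap.ker (plap n)

theorem mem_Harm {l : ℕ} {p : Poly n} : p ∈ Harm n l ↔ p.IsHomogeneous l ∧ plap n p = 0 := by
  simp [Harm]

instance finiteDimensional_Hom (l : ℕ) : FiniteDimensional ℝ (Hom n l) :=
  Module.Finite.iff_fg.2 (homogeneousSubmodule_fg (Fin n) ℝ l)

instance finiteDimensional_Harm (l : ℕ) : FiniteDimensional ℝ (Harm n l) :=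
  Submodule.finiteDimensional_of_le inf_le_left

theorem Harm_eq_Hom {l : ℕ} (hl : l < 2) : Harm n l = Hom n l := by
  refine le_antisymm inf_le_left fun p hp => mem_Harm.2 ⟨hp, plap_eq_zero_of_lt hl hp⟩

/-- Laplacian from degree `l + 2` to degree `l`. -/
noncomputable def plapHom (n l : ℕ) : Hom n (l + 2) →ₗ[ℝ] Hom n l :=
  LinearMap.codRestrict _ ((plap n).comp (Submodule.subtype _))
    fun p => plap_isHomogeneous p.2

/-- Multiplication by `psq n`. -/
noncomputable def psqHom (n l : ℕ) : Hom n l →ₗ[ℝ] Hom n (l + 2) :=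
  LinearMap.codRestrict _ ((LinearMap.mulLeft ℝ (psq n)).comp (Submodule.subtype _))
    fun p => by
      have h := psq_isHomogeneous.mul p.2
      rw [add_comm] at h
      exact h

theorem plapHom_comp_surjective (hn : 0 < n) (l : ℕ) :
    Function.Surjective ((plapHom n l).comp (psqHom n l)) := by
  apply LinearMap.surjective_of_injective
  rw [← LinearMap.ker_eq_bot, LinearMap.ker_eq_bot']
  intro p hp
  have h : plap n (psq n * (p : Poly n)) = 0 := congrArg Subtype.val hp
  rw [plap_psq_mul p.2] at h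
  exact Subtype.ext (smul_add_psq_mul_eq_zero l _ (by positivity) _ p.2 h)

theorem exists_decomp (hn : 0 < n) {l : ℕ} {p : Poly n} (hp : p.IsHomogeneous (l + 2)) :
    ∃ h q : Poly n, h ∈ Harm n (l + 2) ∧ q.IsHomogeneous l ∧ p = h + psq n * q := by
  obtain ⟨q, hq⟩ := plapHom_comp_surjective hn l (plapHom n l ⟨p, hp⟩)
  refine ⟨p - psq n * (q : Poly n), q, mem_Harm.2 ⟨?_, ?_⟩, q.2, by ring⟩
  · exact hp.sub (psqHom n l q).2
  · have := congrArg Subtype.val hq
    rw [map_sub, sub_eq_zero]
    exact this.symm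

theorem finrank_Harm_add (hn : 0 < n) (l : ℕ) :
    Module.finrank ℝ (Harm n (l + 2)) + Module.finrank ℝ (Hom n l)
      = Module.finrank ℝ (Hom n (l + 2)) := by
  have hsurj : Function.Surjective (plapHom n l) := fun y => by
    obtain ⟨q, hq⟩ := plapHom_comp_surjective hn l y
    exact ⟨_, hq⟩
  have h := LinearMap.finrank_range_add_finrank_ker (plapHom n l)
  rw [LinearMap.range_eq_top.2 hsurj, finrank_top] at h
  have hk : Module.finrank ℝ (LinearMap.ker (plapHom n l)) = Module.finrank ℝ (Harm n (l + 2)) := by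
    have he : LinearMap.ker (plapHom n l) = Submodule.comap (Hom n (l + 2)).subtype (Harm n (l + 2)) := by
      ext p
      rw [LinearMap.mem_ker, Submodule.mem_comap]
      exact ⟨fun h => mem_Harm.2 ⟨p.2, congrArg Subtype.val h⟩,
        fun h => Subtype.ext (mem_Harm.1 h).2⟩
    rw [he]
    exact LinearEquiv.finrank_eq (Submodule.comapSubtypeEquivOfLe inf_le_left)
  omega

theorem finrank_Hom (hn : 0 < n) (l : ℕ) :
    Module.finrank ℝ (Hom n l) = Nat.choose (n + l - 1) l := by
  have he : Hom n l = restrictSupport ℝ {d : Fin n →₀ ℕ | d.degree = l} :=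
    homogeneousSubmodule_eq_finsupp_supported (Fin n) ℝ l
  have hs : {d : Fin n →₀ ℕ | d.degree = l}
      = ((Finset.univ : Finset (Fin n)).finsuppAntidiag l : Set (Fin n →₀ ℕ)) := by
    ext d; simp [Finsupp.degree_eq_sum]
  rw [he, hs, Module.finrank_eq_card_basis (basisRestrictSupport ℝ _)]
  refine (Fintype.card_coe _).trans ?_
  rw [card_finsuppAntidiag_nat_eq_choose, Finset.card_univ, Fintype.card_fin]

theorem sum_finrank_Harm (hn : 0 < n) : ∀ k : ℕ,
    ∑ l ∈ Finset.range (k + 1), Module.finrank ℝ (Harm n l)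
      = Nat.choose (n + k - 1) k + (if k = 0 then 0 else Nat.choose (n + k - 2) (k - 1)) := by
  intro k
  induction k with
  | zero =>
    rw [Finset.sum_range_one, Harm_eq_Hom two_pos, finrank_Hom hn]
    simp
  | succ k ih =>
    rw [Finset.sum_range_succ, ih, if_neg (Nat.succ_ne_zero k)]
    rcases k with _ | j
    · rw [show (0 : ℕ) + 1 = 1 from rfl, Harm_eq_Hom one_lt_two, finrank_Hom hn]
      simp
      omega
    · have h := finrank_Harm_add hn j
      rw [finrank_Hom hn, finrank_Hom hn] at h
      rw [if_neg (Nat.succ_ne_zero j)]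
      show Nat.choose (n + (j + 1) - 1) (j + 1) + Nat.choose (n + (j + 1) - 2) j
          + Module.finrank ℝ (Harm n (j + 2))
        = Nat.choose (n + (j + 2) - 1) (j + 2) + Nat.choose (n + (j + 2) - 2) (j + 1)
      rw [show n + (j + 2) - 2 = n + (j + 1) - 1 by omega,
        show n + (j + 1) - 2 = n + j - 1 by omega]
      omega

end Vale.Agent.P225
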