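import Vale.Agent.P225.Defs
import Vale.Agent.P225.Poly

/-! # Coordinate calculus for radial functions -/

namespace Vale.Agent.P225

open scoped Laplacian
open InnerProductSpace MeasureTheory Filter Topology

variable {n : ℕ}

/-- The standard unit vectors. -/
noncomputable def unit (i : Fin n) : Euc n := EuclideanSpace.single i (1 : ℝ)

/-- Partial derivative. -/
noncomputable def pd (i : Fin n) (f : Euc n → ℝ) (x : Euc n) : ℝ := fderiv ℝ f x (unit i)

theorem norm_unit (i : Fin n) : ‖unit i‖ = 1 := by simp [unit]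

theorem unit_apply (i j : Fin n) : unit i j = if j = i then (1 : ℝ) else 0 := by
  simp [unit, EuclideanSpace.single_apply]

theorem contDiff_pd {f : Euc n → ℝ} {m : ℕ} (i : Fin n) (hf : ContDiff ℝ (m + 1 : ℕ) f) :
    ContDiff ℝ m (pd i f) :=
  (hf.fderiv_right (by norm_cast)).clm_apply contDiff_const

theorem pd_pd_eq {f : Euc n → ℝ} (hf : ContDiff ℝ 2 f) (i j : Fin n) (x : Euc n) :
    pd i (pd j f) x = iteratedFDeriv ℝ 2 f x ![unit i, unit j] := by
  have hd : DifferentiableAt ℝ (fderiv ℝ f) x :=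
    ((hf.fderiv_right (m := 1) (by norm_num)).differentiable (by norm_num)).differentiableAt
  rw [iteratedFDeriv_two_apply]
  show fderiv ℝ (fun y => fderiv ℝ f y (unit j)) x (unit i) = _
  rw [fderiv_clm_apply hd (differentiableAt_const _)]
  simp

theorem laplacian_eq_sum_pd {f : Euc n → ℝ} (hf : ContDiff ℝ 2 f) (x : Euc n) :
    (Δ f) x = ∑ i, pd i (pd i f) x := by
  rw [laplacian_eq_iteratedFDeriv_orthonormalBasis f (EuclideanSpace.basisFun (Fin n) ℝ)]
  refine Finset.sum_congr rfl fun i _ => ?_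
  rw [pd_pd_eq hf, EuclideanSpace.basisFun_apply]
  rfl

theorem inner_gradient (f : Euc n → ℝ) (x : Euc n) (v : Euc n) :
    inner ℝ (gradient f x) v = fderiv ℝ f x v := by
  simp [gradient]

theorem inner_gradient_eq_sum (f g : Euc n → ℝ) (x : Euc n) :
    inner ℝ (gradient f x) (gradient g x) = ∑ i, pd i f x * pd i g x := by
  rw [← (EuclideanSpace.basisFun (Fin n) ℝ).sum_inner_mul_inner]
  refine Finset.sum_congr rfl fun i _ => ?_
  rw [inner_gradient, real_inner_comm, inner_gradient, EuclideanSpace.basisFun_apply]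
  rfl

theorem norm_gradient_sq (f : Euc n → ℝ) (x : Euc n) :
    ‖gradient f x‖ ^ 2 = ∑ i, pd i f x ^ 2 := by
  rw [← real_inner_self_eq_norm_sq, inner_gradient_eq_sum]
  exact Finset.sum_congr rfl fun i _ => (sq _).symm

theorem isHarmonic_iff {Φ u : Euc n → ℝ} (hu : ContDiff ℝ 2 u) :
    IsHarmonic Φ u ↔
      ∀ x, ∑ i, (pd i (pd i u) x + ((n : ℝ) - 2) * (pd i Φ x * pd i u x)) = 0 := by
  refine forall_congr' fun x => ?_
  rw [laplacian_eq_sum_pd hu, inner_gradient_eq_sum, Finset.sum_add_distrib, Finset.mul_sum]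

theorem pd_mul {f g : Euc n → ℝ} {x : Euc n} (hf : DifferentiableAt ℝ f x)
    (hg : DifferentiableAt ℝ g x) (i : Fin n) :
    pd i (fun y => f y * g y) x = pd i f x * g x + f x * pd i g x := by
  simp only [pd]
  rw [fderiv_fun_mul hf hg]
  simp
  ring

theorem pd_add {f g : Euc n → ℝ} {x : Euc n} (hf : DifferentiableAt ℝ f x)
    (hg : DifferentiableAt ℝ g x) (i : Fin n) :
    pd i (fun y => f y + g y) x = pd i f x + pd i g x := by
  simp only [pd]
  rw [fderiv_fun_add hf hg]
  simp

theorem pd_congr {f g : Euc n → ℝ} {x : Euc n} (h : f =ᶠ[𝓝 x] g) (i : Fin n) :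
    pd i f x = pd i g x := by
  simp only [pd, h.fderiv_eq]

theorem hasFDerivAt_coord (i : Fin n) (x : Euc n) :
    HasFDerivAt (fun y : Euc n => y i) (EuclideanSpace.proj i : Euc n →L[ℝ] ℝ) x :=
  (EuclideanSpace.proj i : Euc n →L[ℝ] ℝ).hasFDerivAt

theorem pd_coord (i j : Fin n) (x : Euc n) :
    pd i (fun y : Euc n => y j) x = if j = i then 1 else 0 := by
  simp only [pd, (hasFDerivAt_coord j x).fderiv]
  exact unit_apply i j

/-- Evaluation of a polynomial on `Euc n`. -/
noncomputable def ev (p : Poly n) (x : Euc n) : ℝ := MvPolynomial.eval (fun i => x i) p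

theorem contDiff_ev (p : Poly n) {m : WithTop ℕ∞} : ContDiff ℝ m (ev p) := by
  induction p using MvPolynomial.induction_on with
  | C a =>
    have h : ev (MvPolynomial.C a : Poly n) = fun _ => a := by funext x; simp [ev]
    rw [h]; exact contDiff_const
  | add p q hp hq =>
    have h : ev (p + q) = fun x => ev p x + ev q x := by funext x; simp [ev]
    rw [h]; exact hp.add hq
  | mul_X p j hp =>
    have h : ev (p * MvPolynomial.X j) = fun x => ev p x * x j := by funext x; simp [ev]
    rw [h]; exact hp.mul (EuclideanSpace.proj j : Euc n →L[ℝ] ℝ).contDiff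

theorem differentiableAt_ev (p : Poly n) (x : Euc n) : DifferentiableAt ℝ (ev p) x :=
  ((contDiff_ev p (m := 1)).differentiable (by norm_num)).differentiableAt

theorem pd_ev (i : Fin n) (p : Poly n) (x : Euc n) :
    pd i (ev p) x = ev (MvPolynomial.pderiv i p) x := by
  induction p using MvPolynomial.induction_on with
  | C a =>
    have h : ev (MvPolynomial.C a : Poly n) = fun _ => a := by funext x; simp [ev]
    rw [h]; simp [pd, ev]
  | add p q hp hq =>
    have h : ev (p + q) = fun x => ev p x + ev q x := by funext x; simp [ev]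
    rw [h, pd_add (differentiableAt_ev p x) (differentiableAt_ev q x), hp, hq]
    simp [ev]
  | mul_X p j hp =>
    have h : ev (p * MvPolynomial.X j) = fun x => ev p x * x j := by funext x; simp [ev]
    rw [h, pd_mul (differentiableAt_ev p x) (hasFDerivAt_coord j x).differentiableAt, hp, pd_coord]
    simp only [ev, MvPolynomial.pderiv_mul, MvPolynomial.pderiv_X, map_add, map_mul,
      MvPolynomial.eval_X]
    by_cases hji : j = i <;> simp [hji]

theorem ev_smul {l : ℕ} {p : Poly n} (hp : p.IsHomogeneous l) (t : ℝ) (x : Euc n) :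
    ev p (t • x) = t ^ l * ev p x := by
  simp only [ev, MvPolynomial.eval_eq, Finset.mul_sum]
  refine Finset.sum_congr rfl fun d hd => ?_
  have hdeg : ∑ i ∈ d.support, d i = l := by
    have := hp (MvPolynomial.mem_support_iff.1 hd)
    rw [Finsupp.weight_apply] at this
    simpa [Finsupp.sum] using this
  simp only [PiLp.smul_apply, smul_eq_mul, mul_pow, Finset.prod_mul_distrib,
    Finset.prod_pow_eq_pow_sum, hdeg]
  ring

/-- Derivative of a radial function away from the origin. -/
theorem hasFDerivAt_radial {g : ℝ → ℝ} {g' : ℝ} {x : Euc n} (hx : x ≠ 0)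
    (hg : HasDerivAt g g' ‖x‖) :
    HasFDerivAt (fun y : Euc n => g ‖y‖) ((g' / ‖x‖) • innerSL ℝ x) x := by
  have hx' : ‖x‖ ≠ 0 := norm_ne_zero_iff.2 hx
  have h1 := (hasStrictFDerivAt_norm_sq x).hasFDerivAt.sqrt (pow_ne_zero 2 hx')
  have h2 : (fun y : Euc n => Real.sqrt (‖y‖ ^ 2)) = fun y => ‖y‖ := by
    funext y; exact Real.sqrt_sq (norm_nonneg y)
  rw [h2, Real.sqrt_sq (norm_nonneg x)] at h1
  have h3 := hg.comp_hasFDerivAt x h1
  convert! h3 using 1
  ext v
  simp
  field_simp

theorem pd_radial {g : ℝ → ℝ} {g' : ℝ} {x : Euc n} (hx : x ≠ 0)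
    (hg : HasDerivAt g g' ‖x‖) (i : Fin n) :
    pd i (fun y : Euc n => g ‖y‖) x = g' * x i / ‖x‖ := by
  simp only [pd, (hasFDerivAt_radial hx hg).fderiv]
  simp [unit, EuclideanSpace.inner_single_right]
  ring

theorem sum_mul_self (x : Euc n) : ∑ i, x i * x i = ‖x‖ ^ 2 := by
  rw [EuclideanSpace.real_norm_sq_eq]
  exact Finset.sum_congr rfl fun i _ => (sq _).symm

theorem eventually_ne_zero {x : Euc n} (hx : x ≠ 0) : ∀ᶠ y in 𝓝 x, y ≠ 0 :=
  eventually_ne_nhds hx

theorem pd_pd_radial {g g1 : ℝ → ℝ} {k' : ℝ} {x : Euc n} (hx : x ≠ 0)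
    (hg : ∀ r, 0 < r → HasDerivAt g (g1 r * r) r) (hk : HasDerivAt g1 k' ‖x‖) (i : Fin n) :
    pd i (pd i (fun y : Euc n => g ‖y‖)) x = k' * x i / ‖x‖ * x i + g1 ‖x‖ := by
  have he : pd i (fun y : Euc n => g ‖y‖) =ᶠ[𝓝 x] fun y => g1 ‖y‖ * y i := by
    filter_upwards [eventually_ne_zero hx] with y hy
    rw [pd_radial hy (hg _ (norm_pos_iff.2 hy))]
    have : ‖y‖ ≠ 0 := norm_ne_zero_iff.2 hy
    field_simp
  rw [pd_congr he, pd_mul (hasFDerivAt_radial hx hk).differentiableAt
    (hasFDerivAt_coord i x).differentiableAt, pd_radial hx hk, pd_coord]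
  simp

end Vale.Agent.P225
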