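import Mathlib

/-! # Conformally Euclidean metrics `exp (2 Φ) δ` on `ℝ^n` -/

namespace Vale.Agent.P225

open scoped Gradient InnerProductSpace Laplacian
open MeasureTheory InnerProductSpace Filter

/-- Euclidean `n`-space. -/
abbrev Euc (n : ℕ) : Type := EuclideanSpace ℝ (Fin n)

/-- Harmonicity for the metric `exp (2 Φ) δ`: its Laplace-Beltrami operator is
`exp (-2 Φ) (Δ u + (n - 2) ⟪∇Φ, ∇u⟫)`. -/
def IsHarmonic {n : ℕ} (Φ u : Euc n → ℝ) : Prop :=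
  ∀ x, (Δ u) x + ((n : ℝ) - 2) * inner ℝ (gradient Φ x) (gradient u x) = 0

/-- The Ricci curvature of `exp (2 Φ) δ` evaluated on `(v, v)`. -/
noncomputable def ricci {n : ℕ} (Φ : Euc n → ℝ) (x v : Euc n) : ℝ :=
  -((n : ℝ) - 2) * (iteratedFDeriv ℝ 2 Φ x ![v, v] - (fderiv ℝ Φ x v) ^ 2)
    - ((Δ Φ) x + ((n : ℝ) - 2) * ‖gradient Φ x‖ ^ 2) * ‖v‖ ^ 2

/-- The `exp (2 Φ) δ`-length of the segment from `0` to `x`. -/
noncomputable def segLength {n : ℕ} (Φ : Euc n → ℝ) (x : Euc n) : ℝ :=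
  (∫ t in (0 : ℝ)..1, Real.exp (Φ (t • x))) * ‖x‖

/-- Polynomial growth of order `d` with respect to `segLength Φ`. -/
def HasGrowth {n : ℕ} (Φ : Euc n → ℝ) (d : ℝ) (u : Euc n → ℝ) : Prop :=
  ∃ C : ℝ, ∀ x, |u x| ≤ C * (1 + segLength Φ x) ^ d

/-- The dimension of the space of harmonic polynomials of degree at most `k` on `ℝ^n`. -/
def harmonicDim (n k : ℕ) : ℕ :=
  Nat.choose (n + k - 1) k + (if k = 0 then 0 else Nat.choose (n + k - 2) (k - 1))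

end Vale.Agent.P225
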