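import Vale.Agent.P225.Vanish

/-! # The dimension bound -/

namespace Vale.Agent.P225

open MeasureTheory Filter Topology Metric

variable {n : ℕ}

/-- A continuous function on the sphere orthogonal to all harmonic polynomials vanishes. -/
theorem sphere_eq_zero (hn : 0 < n) (v : C(Sph n, ℝ))
    (h : ∀ (l : ℕ) (p : Poly n), p ∈ Harm n l → ∫ θ : Sph n, v θ * ev p θ ∂surf n = 0) :
    v = 0 := by
  have hint : ∀ p : Poly n, Integrable (fun θ : Sph n => v θ * ev p θ) (surf n) := fun p =>
    (v.continuous.mul ((contDiff_ev p (m := 1)).continuous.comp continuous_subtype_val)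
      ).integrable_of_hasCompactSupport (HasCompactSupport.of_compactSpace _)
  have hhom : ∀ (l : ℕ) (p : Poly n), p.IsHomogeneous l →
      ∫ θ : Sph n, v θ * ev p θ ∂surf n = 0 := by
    intro l
    induction l using Nat.strong_induction_on with
    | _ l ih =>
      intro p hp
      by_cases hl : l < 2
      · exact h l p (by rw [Harm_eq_Hom hl]; exact hp)
      · obtain ⟨j, rfl⟩ : ∃ j, l = j + 2 := ⟨l - 2, by omega⟩
        obtain ⟨a, q, ha, hq, rfl⟩ := exists_decomp hn hp
        have hpsq : ∀ θ : Sph n, ev (psq n * q) θ = ev q θ := by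
          intro θ
          have h1 : ∑ i, (θ : Euc n) i ^ 2 = 1 := by
            rw [← EuclideanSpace.real_norm_sq_eq, norm_eq_of_mem_sphere θ]; norm_num
          simp [ev, psq, map_sum, h1]
        have e : ∀ θ : Sph n, v θ * ev (a + psq n * q) θ = v θ * ev a θ + v θ * ev q θ := by
          intro θ
          rw [← hpsq θ]
          simp only [ev, map_add]
          ring
        rw [integral_congr_ae (Eventually.of_forall e), integral_add (hint a) (hint q),
          h _ a ha, ih j (by omega) q hq, add_zero]
  have hall : ∀ p : Poly n, ∫ θ : Sph n, v θ * ev p θ ∂surf n = 0 := by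
    intro p
    have e : ∀ θ : Sph n, v θ * ev p θ
        = ∑ i ∈ Finset.range (p.totalDegree + 1),
            v θ * ev (MvPolynomial.homogeneousComponent i p) θ := by
      intro θ
      rw [← Finset.mul_sum]
      congr 1
      conv_lhs => rw [← MvPolynomial.sum_homogeneousComponent p]
      simp [ev, map_sum]
    rw [integral_congr_ae (Eventually.of_forall e), integral_finsetSum _ (fun i _ => hint _)]
    exact Finset.sum_eq_zero fun i _ =>
      hhom i _ (MvPolynomial.homogeneousComponent_mem i p)
  set X : Fin n → C(Sph n, ℝ) := fun i =>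
    ⟨fun θ => (θ : Euc n) i, (PiLp.continuous_apply 2 _ i).comp continuous_subtype_val⟩ with hX
  set A : Subalgebra ℝ C(Sph n, ℝ) := (MvPolynomial.aeval X).range with hA
  have hsep : A.SeparatesPoints := by
    intro θ η hne
    have : ∃ i, (θ : Euc n) i ≠ (η : Euc n) i := by
      by_contra hc
      push Not at hc
      exact hne (Subtype.ext (PiLp.ext hc))
    obtain ⟨i, hi⟩ := this
    exact ⟨_, ⟨X i, ⟨MvPolynomial.X i, by simp⟩, rfl⟩, hi⟩
  have haeval : ∀ (p : Poly n) (θ : Sph n), MvPolynomial.aeval X p θ = ev p θ := by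
    intro p θ
    induction p using MvPolynomial.induction_on with
    | C a => simp [ev]
    | add p q hp hq => simp only [map_add, ContinuousMap.add_apply, hp, hq, ev]
    | mul_X p i hp =>
      simp only [map_mul, MvPolynomial.aeval_X, ContinuousMap.mul_apply, hp, ev,
        MvPolynomial.eval_X]
      rfl
  have hvv : ∫ θ : Sph n, v θ * v θ ∂surf n ≤ 0 := by
    refine le_of_forall_pos_le_add fun δ hδ => ?_
    set T := (‖v‖ + 1) * ((surf n).real Set.univ + 1) with hT
    have hTpos : 0 < T := by positivity
    obtain ⟨g, hg⟩ := ContinuousMap.exists_mem_subalgebra_near_continuousMap_of_separatesPoints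
      A hsep v (δ / T) (div_pos hδ hTpos)
    obtain ⟨gv, p, hp⟩ := g
    have hg' : ‖MvPolynomial.aeval X p - v‖ < δ / T := by
      simpa [← hp] using hg
    have hi1 : Integrable (fun θ : Sph n => v θ * v θ) (surf n) :=
      (v.continuous.mul v.continuous).integrable_of_hasCompactSupport
        (HasCompactSupport.of_compactSpace _)
    have hsub : ∫ θ : Sph n, v θ * v θ ∂surf n
        = ∫ θ : Sph n, (v θ * v θ - v θ * ev p θ) ∂surf n := by
      rw [integral_sub hi1 (hint p), hall p, sub_zero]
    rw [hsub, zero_add]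
    have hb := norm_integral_le_of_norm_le_const (μ := surf n)
      (f := fun θ : Sph n => v θ * v θ - v θ * ev p θ) (C := ‖v‖ * (δ / T))
      (Eventually.of_forall fun θ => by
        rw [← mul_sub, norm_mul]
        refine mul_le_mul (v.norm_coe_le_norm θ) ?_ (norm_nonneg _) (norm_nonneg _)
        have h1 := (MvPolynomial.aeval X p - v).norm_coe_le_norm θ
        rw [ContinuousMap.sub_apply, haeval, norm_sub_rev] at h1
        exact h1.trans hg'.le)
    refine (le_abs_self _).trans (hb.trans ?_)
    rw [mul_comm ‖v‖, mul_assoc]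
    calc δ / T * (‖v‖ * (surf n).real Set.univ) ≤ δ / T * T :=
          mul_le_mul_of_nonneg_left
            (mul_le_mul (by linarith) (by linarith) measureReal_nonneg (by positivity))
            (div_pos hδ hTpos).le
      _ = δ := div_mul_cancel₀ _ hTpos.ne'
  have hz : ∫ θ : Sph n, v θ * v θ ∂surf n = 0 :=
    le_antisymm hvv (integral_nonneg fun θ => mul_self_nonneg _)
  have hcont : Continuous fun θ : Sph n => v θ * v θ := v.continuous.mul v.continuous
  have hint2 := hcont.integrable_of_hasCompactSupport (μ := surf n)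
    (HasCompactSupport.of_compactSpace _)
  have hae := (integral_eq_zero_iff_of_nonneg (fun θ => mul_self_nonneg (v θ)) hint2).1 hz
  have heq : (fun θ : Sph n => v θ * v θ) = fun _ => (0 : ℝ) :=
    Continuous.ae_eq_iff_eq (surf n) hcont continuous_const |>.1 hae
  ext θ
  exact mul_self_eq_zero.1 (congrFun heq θ)

theorem contDiff_linearCombination {m : ℕ} {u : Fin m → Euc n → ℝ}
    (hu : ∀ i, ContDiff ℝ 2 (u i)) (a : Fin m → ℝ) :
    ContDiff ℝ 2 (fun x => ∑ i, a i * u i x) :=
  ContDiff.sum fun i _ => contDiff_const.mul (hu i)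

theorem isHarmonic_linearCombination {Φ : Euc n → ℝ} {m : ℕ} {u : Fin m → Euc n → ℝ}
    (hu : ∀ i, ContDiff ℝ 2 (u i)) (hh : ∀ i, IsHarmonic Φ (u i)) (a : Fin m → ℝ) :
    IsHarmonic Φ (fun x => ∑ i, a i * u i x) := by
  rw [isHarmonic_iff (contDiff_linearCombination hu a)]
  intro x
  have hd : ∀ (k : Fin n) (f : Fin m → Euc n → ℝ) (y : Euc n),
      (∀ i, DifferentiableAt ℝ (f i) y) →
      pd k (fun z => ∑ i, a i * f i z) y = ∑ i, a i * pd k (f i) y := by
    intro k f y hf
    simp only [pd]
    rw [fderiv_fun_sum (fun i _ => (hf i).const_mul (a i))]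
    simp [ContinuousLinearMap.sum_apply, fderiv_const_mul (hf _)]
  have h1 : ∀ k y, pd k (fun z => ∑ i, a i * u i z) y = ∑ i, a i * pd k (u i) y := fun k y =>
    hd k u y fun i => ((hu i).differentiable (by norm_num)).differentiableAt
  have h2 : ∀ k, pd k (pd k fun z => ∑ i, a i * u i z) x
      = ∑ i, a i * pd k (pd k (u i)) x := by
    intro k
    rw [show pd k (fun z => ∑ i, a i * u i z) = fun y => ∑ i, a i * pd k (u i) y from funext (h1 k)]
    exact hd k (fun i => pd k (u i)) x fun i =>
      ((contDiff_pd (m := 1) k (hu i)).differentiable (by norm_num)).differentiableAt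
  simp only [h2, h1, Finset.mul_sum, ← Finset.sum_add_distrib]
  rw [Finset.sum_comm]
  refine Finset.sum_eq_zero fun i _ => ?_
  have h := (isHarmonic_iff (hu i)).1 (hh i) x
  rw [show (∑ k, (a i * pd k (pd k (u i)) x + ((n : ℝ) - 2) * (pd k Φ x * (a i * pd k (u i) x))))
      = a i * ∑ k, (pd k (pd k (u i)) x + ((n : ℝ) - 2) * (pd k Φ x * pd k (u i) x)) by
    rw [Finset.mul_sum]; exact Finset.sum_congr rfl fun k _ => by ring, h, mul_zero]

theorem hasGrowth_linearCombination {Φ : Euc n → ℝ} {d : ℝ} {m : ℕ} {u : Fin m → Euc n → ℝ}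
    (hg : ∀ i, HasGrowth Φ d (u i)) (a : Fin m → ℝ) :
    HasGrowth Φ d (fun x => ∑ i, a i * u i x) := by
  choose C hC using hg
  refine ⟨∑ i, |a i| * C i, fun x => (Finset.abs_sum_le_sum_abs _ _).trans ?_⟩
  rw [Finset.sum_mul]
  refine Finset.sum_le_sum fun i _ => ?_
  rw [abs_mul, mul_assoc]
  exact mul_le_mul_of_nonneg_left (hC i x) (abs_nonneg _)

/-- At most `harmonicDim n ⌊d⌋` harmonic functions of growth `d` are linearly independent. -/
theorem card_le_harmonicDim (hn : 2 ≤ n) {Φ : Euc n → ℝ} (hΦ : ContDiff ℝ 2 Φ)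
    (hrad : ∀ x y, ‖x‖ = ‖y‖ → Φ x = Φ y) (hric : ∀ x v, 0 ≤ ricci Φ x v)
    (hcomp : Tendsto (segLength Φ) (cocompact (Euc n)) atTop) {d : ℝ} (hd : 0 ≤ d)
    {m : ℕ} {u : Fin m → Euc n → ℝ} (hu : ∀ i, ContDiff ℝ 2 (u i))
    (hh : ∀ i, IsHarmonic Φ (u i)) (hg : ∀ i, HasGrowth Φ d (u i))
    (hli : LinearIndependent ℝ u) : m ≤ harmonicDim n ⌊d⌋₊ := by
  have hn0 : 0 < n := by omega
  set k := ⌊d⌋₊ with hk
  let U : (Fin m → ℝ) → Euc n → ℝ := fun a x => ∑ i, a i * u i x
  -- test functionals on the sphere of radius `R`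
  let T : ℝ → (Fin m → ℝ) →ₗ[ℝ]
      ((l : Fin (k + 1)) → Fin (Module.finrank ℝ (Harm n l)) → ℝ) := fun R =>
    LinearMap.pi fun l => LinearMap.pi fun b =>
      ∑ i : Fin m, (proj ((Module.finBasis ℝ (Harm n l) b : Harm n l) : Poly n) (u i) R)
        • LinearMap.proj i
  have hint : ∀ (i : Fin m) (R : ℝ) (p : Poly n),
      Integrable (fun θ : Sph n => u i (R • (θ : Euc n)) * ev p θ) (surf n) := fun i R p => by
    have hc : Continuous fun θ : Sph n => u i (R • (θ : Euc n)) * ev p θ := by
      have := (hu i).continuous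
      have := (contDiff_ev p (m := 1)).continuous
      fun_prop
    exact hc.integrable_of_hasCompactSupport (HasCompactSupport.of_compactSpace _)
  have hproj : ∀ (a : Fin m → ℝ) (p : Poly n) (R : ℝ),
      proj p (U a) R = ∑ i, proj p (u i) R * a i := by
    intro a p R
    simp only [proj, U, Finset.sum_mul]
    rw [integral_finsetSum]
    · refine Finset.sum_congr rfl fun i _ => ?_
      rw [← integral_mul_const]
      exact integral_congr_ae (Eventually.of_forall fun θ => by ring)
    · intro i _
      exact ((hint i R p).const_mul (a i)).congr (Eventually.of_forall fun θ => by ring)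
  have hker : ∀ R : ℝ, 0 < R → ∀ a, T R a = 0 → ∀ x, ‖x‖ ≤ R → U a x = 0 := by
    intro R hR a ha
    have hUc := contDiff_linearCombination hu a
    have hUh := isHarmonic_linearCombination hu hh a
    have hvc : Continuous fun θ : Sph n => U a (R • (θ : Euc n)) := by
      have : Continuous (U a) := hUc.continuous
      fun_prop
    have hv : (⟨fun θ => U a (R • (θ : Euc n)), hvc⟩ : C(Sph n, ℝ)) = 0 := by
      refine sphere_eq_zero hn0 _ fun l p hp => ?_
      show proj p (U a) R = 0
      by_cases hlk : l ≤ k
      · let Λ : Harm n l →ₗ[ℝ] ℝ :=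
          { toFun := fun q => proj (q : Poly n) (U a) R
            map_add' := fun q r => by
              simp only [hproj]
              rw [← Finset.sum_add_distrib]
              refine Finset.sum_congr rfl fun i _ => ?_
              rw [← add_mul]
              congr 1
              simp only [proj, Submodule.coe_add]
              rw [← integral_add (hint i R _) (hint i R _)]
              exact integral_congr_ae (Eventually.of_forall fun θ => by
                simp only [ev, map_add]; ring)
            map_smul' := fun c q => by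
              simp only [proj, Submodule.coe_smul, RingHom.id_apply, smul_eq_mul]
              rw [← integral_const_mul]
              exact integral_congr_ae (Eventually.of_forall fun θ => by
                simp only [ev, MvPolynomial.smul_eval]; ring) }
        have hΛ : Λ = 0 := by
          refine (Module.finBasis ℝ (Harm n l)).ext fun b => ?_
          have := congrFun (congrFun ha ⟨l, Nat.lt_succ_of_le hlk⟩) b
          simp only [T, LinearMap.pi_apply, LinearMap.sum_apply, LinearMap.smul_apply,
            LinearMap.proj_apply, smul_eq_mul, Pi.zero_apply] at this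
          show proj _ (U a) R = 0
          rw [hproj]
          exact this
        exact LinearMap.congr_fun hΛ ⟨p, hp⟩
      · push Not at hlk
        have hdl : d < l := by
          have h1 := Nat.lt_floor_add_one d
          have : (k : ℝ) + 1 ≤ l := by exact_mod_cast hlk
          rw [hk] at this
          linarith
        obtain ⟨h1, h2⟩ := mem_Harm.1 hp
        exact proj_eq_zero hn hΦ hrad hric hcomp hUc hUh hd (hasGrowth_linearCombination hg a)
          (by omega) hdl h1 h2 hR.le
    have hsph : ∀ x : Euc n, ‖x‖ = R → U a x = 0 := by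
      intro x hx
      have hmem : R⁻¹ • x ∈ sphere (0 : Euc n) 1 := by
        simp [norm_smul, hx, abs_of_pos hR, hR.ne']
      have := DFunLike.congr_fun hv ⟨_, hmem⟩
      simpa [smul_smul, hR.ne'] using this
    intro x hx
    refine le_antisymm (eq_zero_of_eq_zero_sphere hn0 hΦ hUc hUh (fun y hy => (hsph y hy).le) x hx) ?_
    have hneg : U (-a) = fun y => -U a y := by
      funext y; simp [U, Finset.sum_neg_distrib]
    have := eq_zero_of_eq_zero_sphere hn0 hΦ (contDiff_linearCombination hu (-a))
      (isHarmonic_linearCombination hu hh (-a))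
      (fun y hy => by
        show U (-a) y ≤ 0
        rw [hneg]; simp [hsph y hy]) x hx
    have h' : U (-a) x ≤ 0 := this
    rw [hneg] at h'
    linarith
  by_contra hlt
  push Not at hlt
  have hdim : Module.finrank ℝ ((l : Fin (k + 1)) → Fin (Module.finrank ℝ (Harm n l)) → ℝ)
      = harmonicDim n k := by
    rw [Module.finrank_pi_fintype]
    simp only [Module.finrank_fin_fun]
    rw [Fin.sum_univ_eq_sum_range (fun l => Module.finrank ℝ (Harm n l)), sum_finrank_Harm hn0]
    rfl
  have hne : ∀ R, ∃ a, a ≠ 0 ∧ T R a = 0 := by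
    intro R
    have : LinearMap.ker (T R) ≠ ⊥ := LinearMap.ker_ne_bot_of_finrank_lt (by
      rw [hdim, Module.finrank_fin_fun]; exact hlt)
    obtain ⟨a, ha, ha0⟩ := Submodule.exists_mem_ne_zero_of_ne_bot this
    exact ⟨a, ha0, ha⟩
  let Z : ℕ → Submodule ℝ (Fin m → ℝ) := fun j =>
    { carrier := {a | ∀ x, ‖x‖ ≤ (j : ℝ) + 1 → U a x = 0}
      zero_mem' := fun x _ => by simp [U]
      add_mem' := fun {a b} ha hb x hx => by
        have h1 := ha x hx
        have h2 := hb x hx
        simp only [U] at h1 h2 ⊢
        simp [add_mul, Finset.sum_add_distrib, h1, h2]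
      smul_mem' := fun c a ha x hx => by
        have h1 := ha x hx
        simp only [U] at h1 ⊢
        simp [mul_assoc, ← Finset.mul_sum, h1] }
  have hZne : ∀ j, Z j ≠ ⊥ := by
    intro j hj
    obtain ⟨a, ha0, ha⟩ := hne ((j : ℝ) + 1)
    have : a ∈ Z j := hker _ (by positivity) a ha
    rw [hj] at this
    exact ha0 ((Submodule.mem_bot ℝ).1 this)
  have hanti : Antitone Z := fun i j hij a ha x hx =>
    ha x (hx.trans (by
      have : (i : ℝ) ≤ j := by exact_mod_cast hij
      linarith))
  obtain ⟨j0, hj0⟩ := IsArtinian.monotone_stabilizes (R := ℝ) (M := Fin m → ℝ)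
    ⟨fun j => OrderDual.toDual (Z j), fun i j hij => hanti hij⟩
  obtain ⟨a, ha, ha0⟩ := Submodule.exists_mem_ne_zero_of_ne_bot (hZne j0)
  refine ha0 ?_
  have hU : U a = 0 := by
    funext x
    obtain ⟨j, hj⟩ := exists_nat_ge ‖x‖
    have he : Z j0 = Z (max j0 j) := hj0 (max j0 j) (le_max_left _ _)
    have hmem : a ∈ Z (max j0 j) := he ▸ ha
    refine hmem x (hj.trans ?_)
    have : (j : ℝ) ≤ (max j0 j : ℕ) := by exact_mod_cast le_max_right j0 j
    linarith
  funext i
  refine Fintype.linearIndependent_iff.1 hli a ?_ i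
  funext x
  have := congrFun hU x
  simpa [U] using this

end Vale.Agent.P225
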