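import Vale.Agent.Common.Brouwer

/-!
# Exact switches in a finite-dimensional algebra

If the operators `K i`, together with a space `Z` of central elements, generate the whole algebra
under the maps `X ↦ K i * X - X * K i`, then every product of exponentials has a continuous
neighbourhood of representations `exp z * ∏ exp (a_k • K (idx k))` with one fixed index list.
Brouwer's theorem then hits the target exactly by any uniform perturbation of this word map.
-/

namespace Vale.Agent.P225.Switch

open NormedSpace Metric Set Filter Topology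

variable {A : Type*} [NormedRing A] [NormedAlgebra ℝ A] {ι : Type*}

/-- The product of exponentials along a list of indices with amplitudes. -/
noncomputable def word (K : ι → A) (l : List (ι × ℝ)) : A :=
  (l.map fun p => exp (p.2 • K p.1)).prod

/-- The formal inverse of a word. -/
def wordInv (l : List (ι × ℝ)) : List (ι × ℝ) := (l.map fun p => (p.1, -p.2)).reverse

/-- The word map of a fixed index sequence. -/
noncomputable def wordMap (K : ι → A) {M : ℕ} (idx : Fin M → ι) (a : Fin M → ℝ) : A :=
  word K (List.ofFn fun k => (idx k, a k))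

@[simp] lemma word_nil (K : ι → A) : word K [] = 1 := rfl

lemma word_append (K : ι → A) (l l' : List (ι × ℝ)) : word K (l ++ l') = word K l * word K l' := by
  simp [word]

lemma word_cons (K : ι → A) (p : ι × ℝ) (l : List (ι × ℝ)) :
    word K (p :: l) = exp (p.2 • K p.1) * word K l := by
  simp [word]

lemma wordInv_wordInv (l : List (ι × ℝ)) : wordInv (wordInv l) = l := by
  simp [wordInv, List.map_reverse, List.map_map, Function.comp_def]

lemma exp_add' [CompleteSpace A] {x y : A} (h : Commute x y) : exp (x + y) = exp x * exp y := by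
  let _ := NormedAlgebra.restrictScalars ℚ ℝ A
  exact exp_add_of_commute h

lemma exp_neg_mul [CompleteSpace A] (x : A) : exp (-x) * exp x = 1 := by
  rw [← exp_add' (Commute.refl x).neg_left, neg_add_cancel, exp_zero]

lemma word_wordInv_mul [CompleteSpace A] (K : ι → A) (l : List (ι × ℝ)) :
    word K (wordInv l) * word K l = 1 := by
  induction l with
  | nil => simp [wordInv]
  | cons p l ih =>
    have hl : wordInv (p :: l) = wordInv l ++ [(p.1, -p.2)] := by simp [wordInv]
    rw [hl, word_append, word_cons K p l, word_cons, word_nil, mul_one, mul_assoc,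
      ← mul_assoc (exp ((-p.2) • K p.1)), neg_smul, exp_neg_mul, one_mul, ih]

lemma word_mul_wordInv [CompleteSpace A] (K : ι → A) (l : List (ι × ℝ)) :
    word K l * word K (wordInv l) = 1 := by
  simpa [wordInv_wordInv] using word_wordInv_mul K (wordInv l)

lemma continuous_exp' [CompleteSpace A] : Continuous (exp : A → A) := by
  let _ := NormedAlgebra.restrictScalars ℚ ℝ A
  exact exp_continuous

/-- The conjugates of the generators by words span a subspace which, together with the centre,
is everything. -/
lemma conj_span_top [FiniteDimensional ℝ A] (K : ι → A) (Z : Submodule ℝ A)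
    (hZ : ∀ z ∈ Z, ∀ x : A, Commute z x)
    (hgen : ∀ S : Submodule ℝ A, Z ≤ S → (∀ i, K i ∈ S) →
      (∀ i, ∀ X ∈ S, K i * X - X * K i ∈ S) → S = ⊤) :
    Submodule.span ℝ ((Z : Set A) ∪ range fun p : List (ι × ℝ) × ι =>
      word K p.1 * K p.2 * word K (wordInv p.1)) = ⊤ := by
  have : CompleteSpace A := FiniteDimensional.complete ℝ A
  set S := Submodule.span ℝ ((Z : Set A) ∪ range fun p : List (ι × ℝ) × ι =>
    word K p.1 * K p.2 * word K (wordInv p.1)) with hS
  have hconj : ∀ i (s : ℝ), ∀ X ∈ S, exp (s • K i) * X * exp ((-s) • K i) ∈ S := by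
    intro i s X hX
    induction hX using Submodule.span_induction with
    | mem x hx =>
      rcases hx with hx | ⟨⟨l, j⟩, rfl⟩
      · refine Submodule.subset_span (Or.inl ?_)
        rw [← (hZ x hx (exp (s • K i))).eq, mul_assoc, neg_smul]
        have h := exp_neg_mul (-(s • K i))
        rw [neg_neg] at h
        simpa [h] using hx
      · refine Submodule.subset_span (Or.inr ⟨((i, s) :: l, j), ?_⟩)
        have hl : wordInv ((i, s) :: l) = wordInv l ++ [(i, -s)] := by simp [wordInv]
        simp only [hl, word_append, word_cons, word_nil, mul_one]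
        noncomm_ring
    | zero => simp
    | add x y _ _ hx hy => simpa [mul_add, add_mul] using S.add_mem hx hy
    | smul c x _ hx => simpa using S.smul_mem c hx
  apply hgen S
  · exact fun z hz => Submodule.subset_span (Or.inl hz)
  · intro i
    exact Submodule.subset_span (Or.inr ⟨([], i), by simp [wordInv]⟩)
  · intro i X hX
    set f : ℝ → A := fun s => exp (s • K i) * X * exp ((-s) • K i) with hf
    have h1 : HasDerivAt (fun s : ℝ => exp (s • K i)) (K i) 0 := by
      simpa using hasDerivAt_exp_smul_const (𝕂 := ℝ) (K i) 0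
    have h2 : HasDerivAt (fun s : ℝ => exp ((-s) • K i)) (-K i) 0 := by
      have := hasDerivAt_exp_smul_const (𝕂 := ℝ) (-K i) 0
      simpa using this
    have h3 : HasDerivAt f (K i * X - X * K i) 0 := by
      simpa [f, sub_eq_add_neg] using (h1.mul_const X).fun_mul h2
    refine (S.closed_of_finiteDimensional).mem_of_tendsto h3.tendsto_slope_zero
      (Eventually.of_forall fun s => ?_)
    refine S.smul_mem _ (S.sub_mem (hconj i _ X hX) ?_)
    simpa [f] using hX

/-- Products of exponentials whose factors are close to `1` are locally covered by central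
exponentials times words with one fixed index list. -/
theorem exists_chart [FiniteDimensional ℝ A] (K : ι → A) (Z : Submodule ℝ A)
    (hZ : ∀ z ∈ Z, ∀ x : A, Commute z x)
    (hgen : ∀ S : Submodule ℝ A, Z ≤ S → (∀ i, K i ∈ S) →
      (∀ i, ∀ X ∈ S, K i * X - X * K i ∈ S) → S = ⊤) :
    ∃ (L : List (ι × (A → ℝ))) (s : A → A) (r : ℝ), 0 < r ∧
      ContinuousOn s (closedBall 1 r) ∧ (∀ p ∈ L, ContinuousOn p.2 (closedBall 1 r)) ∧
      ∀ Q ∈ closedBall (1 : A) r, s Q ∈ Z ∧
        exp (s Q) * word K (L.map fun p => (p.1, p.2 Q)) = Q := by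
  classical
  have : CompleteSpace A := FiniteDimensional.complete ℝ A
  obtain ⟨b, hbsub, hbspan, hbli⟩ := exists_linearIndependent ℝ
    ((Z : Set A) ∪ range fun p : List (ι × ℝ) × ι => word K p.1 * K p.2 * word K (wordInv p.1))
  rw [conj_span_top K Z hZ hgen] at hbspan
  let _ : Fintype b := hbli.setFinite.fintype
  let B : Module.Basis b ℝ A := Module.Basis.mk hbli (by simpa using hbspan.ge)
  have hB : ∀ i, B i = (i : A) := fun i => by simp [B]
  let co : b → A →L[ℝ] ℝ := fun i => (B.coord i).toContinuousLinearMap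
  -- the factor attached to each basis vector
  let g : b → A → A := fun i Q =>
    if h : (i : A) ∈ Z then exp (co i Q • (i : A)) else
      word K ((((hbsub i.2).resolve_left h).choose.1) ++
        [(((hbsub i.2).resolve_left h).choose.2, co i Q)] ++
        wordInv (((hbsub i.2).resolve_left h).choose.1))
  have hg0 : ∀ i, g i 0 = 1 := by
    intro i
    by_cases h : (i : A) ∈ Z
    · simp [g, h, co]
    · simp [g, h, co, word_append, word_cons, word_mul_wordInv]
  have hgd : ∀ i, HasStrictFDerivAt (g i) ((co i).smulRight (i : A)) 0 := by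
    intro i
    have key : ∀ X : A, HasStrictFDerivAt (fun Q => exp (co i Q • X)) ((co i).smulRight X) 0 := by
      intro X
      have he : HasStrictFDerivAt (exp : A → A) (1 : A →L[ℝ] A) (co i 0 • X) := by
        simpa using hasStrictFDerivAt_exp_zero (𝕂 := ℝ) (𝔸 := A)
      refine (he.comp 0 ((co i).hasStrictFDerivAt.smul_const X)).congr_fderiv ?_
      ext Q
      simp
    by_cases h : (i : A) ∈ Z
    · simpa [g, h] using key i
    · set p := ((hbsub i.2).resolve_left h).choose
      have hp : word K p.1 * K p.2 * word K (wordInv p.1) = (i : A) :=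
        ((hbsub i.2).resolve_left h).choose_spec
      have hm := ((hasStrictFDerivAt_const (word K p.1) (0 : A)).fun_mul' (key (K p.2))).fun_mul'
        (hasStrictFDerivAt_const (word K (wordInv p.1)) (0 : A))
      refine (hm.congr_of_eventuallyEq (Eventually.of_forall fun Q => ?_)).congr_fderiv ?_
      · simp [g, h, p, word_append, word_cons, mul_assoc]
      · ext Q
        simp [← hp, mul_assoc]
  -- the derivative of the full product is the identity
  have hprod : ∀ l : List b, HasStrictFDerivAt (fun Q => (l.map fun i => g i Q).prod)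
      ((l.map fun i => (co i).smulRight (i : A)).sum) 0 ∧ (l.map fun i => g i 0).prod = 1 := by
    intro l
    induction l with
    | nil => simpa using hasStrictFDerivAt_const (1 : A) (0 : A)
    | cons i l ih =>
      refine ⟨?_, by simp [hg0, ih.2]⟩
      have hm := (hgd i).fun_mul' ih.1
      simp only [List.map_cons, List.prod_cons, List.sum_cons]
      refine hm.congr_fderiv ?_
      ext Q
      simp [hg0, ih.2, add_comm]
  let l₀ := (Finset.univ : Finset b).toList
  have hid : (l₀.map fun i => (co i).smulRight (i : A)).sum = ContinuousLinearMap.id ℝ A := by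
    rw [Finset.sum_map_toList]
    ext Q
    have := B.sum_repr Q
    simp only [hB] at this
    simpa [co] using this
  have hΦ : HasStrictFDerivAt (fun Q => (l₀.map fun i => g i Q).prod)
      ((ContinuousLinearEquiv.refl ℝ A : A ≃L[ℝ] A) : A →L[ℝ] A) 0 := by
    refine (hprod l₀).1.congr_fderiv ?_
    simpa using hid
  -- split the product into a central factor and a word
  have hsplit : ∀ l : List b, ∃ (L : List (ι × ((A →L[ℝ] ℝ) ⊕ ℝ))) (s : A →L[ℝ] A),
      ∀ Q, s Q ∈ Z ∧ (l.map fun i => g i Q).prod =
        exp (s Q) * word K (L.map fun p => (p.1, Sum.elim (fun f => f Q) id p.2)) := by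
    intro l
    induction l with
    | nil => exact ⟨[], 0, fun Q => by simp⟩
    | cons i l ih =>
      obtain ⟨L, s, hL⟩ := ih
      by_cases h : (i : A) ∈ Z
      · refine ⟨L, (co i).smulRight (i : A) + s, fun Q => ⟨?_, ?_⟩⟩
        · simpa using Z.add_mem (Z.smul_mem _ h) (hL Q).1
        · simp only [List.map_cons, List.prod_cons, (hL Q).2, g, h, dite_true,
            ContinuousLinearMap.add_apply, ContinuousLinearMap.smulRight_apply]
          rw [exp_add' (hZ _ (Z.smul_mem _ h) _), mul_assoc]
      · set p := ((hbsub i.2).resolve_left h).choose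
        refine ⟨((p.1.map fun q => (q.1, Sum.inr q.2)) ++ [(p.2, Sum.inl (co i))] ++
          (wordInv p.1).map fun q => (q.1, Sum.inr q.2)) ++ L, s, fun Q => ⟨(hL Q).1, ?_⟩⟩
        simp only [List.map_cons, List.prod_cons, (hL Q).2, g, h, dite_false]
        rw [← mul_assoc, ← ((hZ _ (hL Q).1 _).exp_left).eq, mul_assoc, ← word_append]
        simp [p, Function.comp_def, List.map_append]
  obtain ⟨L, s, hL⟩ := hsplit l₀
  set e := hΦ.toOpenPartialHomeomorph _ with he
  have hΦ0 : (l₀.map fun i => g i 0).prod = 1 := (hprod l₀).2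
  have h1 : (1 : A) ∈ e.target := by
    rw [← hΦ0]
    exact hΦ.image_mem_toOpenPartialHomeomorph_target
  obtain ⟨r, hr, hball⟩ := nhds_basis_closedBall.mem_iff.1 (e.open_target.mem_nhds h1)
  have hinv : ContinuousOn e.symm (closedBall 1 r) := e.continuousOn_symm.mono hball
  refine ⟨L.map fun p => (p.1, fun Q => Sum.elim (fun f => f (e.symm Q)) id p.2),
    fun Q => s (e.symm Q), r, hr, s.continuous.comp_continuousOn hinv, ?_, ?_⟩
  · intro p hp
    obtain ⟨⟨i, f | c⟩, -, rfl⟩ := List.mem_map.1 hp
    · exact f.continuous.comp_continuousOn hinv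
    · exact continuousOn_const
  · intro Q hQ
    refine ⟨(hL _).1, ?_⟩
    have h : (l₀.map fun i => g i (e.symm Q)).prod = Q := by
      simpa [he, hΦ.toOpenPartialHomeomorph_coe] using e.right_inv (hball hQ)
    simp only [List.map_map, Function.comp_def]
    rw [(hL (e.symm Q)).2] at h
    simpa [Function.comp_def] using h

/-- Every product of exponentials has, on a closed ball around it, a continuous representation
by a central exponential times a word with a fixed index sequence. -/
theorem exists_section [FiniteDimensional ℝ A] (K : ι → A) (Z : Submodule ℝ A)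
    (hZ : ∀ z ∈ Z, ∀ x : A, Commute z x)
    (hgen : ∀ S : Submodule ℝ A, Z ≤ S → (∀ i, K i ∈ S) →
      (∀ i, ∀ X ∈ S, K i * X - X * K i ∈ S) → S = ⊤)
    (Xs : List A) :
    ∃ (M : ℕ) (idx : Fin M → ι) (s : A → A) (a : A → Fin M → ℝ) (r : ℝ), 0 < r ∧
      ContinuousOn s (closedBall (Xs.map exp).prod r) ∧
      ContinuousOn a (closedBall (Xs.map exp).prod r) ∧
      ∀ Q ∈ closedBall (Xs.map exp).prod r, s Q ∈ Z ∧
        exp (s Q) * wordMap K idx (a Q) = Q := by
  have : CompleteSpace A := FiniteDimensional.complete ℝ A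
  obtain ⟨L, s, r, hr, hs, hL, hQ⟩ := exists_chart K Z hZ hgen
  -- every product of exponentials is a central exponential times a word
  have hrep : ∀ Ys : List A, ∃ z ∈ Z, ∃ l, exp z * word K l = (Ys.map exp).prod := by
    intro Ys
    induction Ys with
    | nil => exact ⟨0, Z.zero_mem, [], by simp⟩
    | cons Y Ys ih =>
      obtain ⟨z, hz, l, hl⟩ := ih
      have ht : Tendsto (fun n : ℕ => exp ((n : ℝ)⁻¹ • Y)) atTop (𝓝 1) := by
        simpa [Function.comp_def] using (continuous_exp'.tendsto _).comp
          ((tendsto_natCast_atTop_atTop (R := ℝ)).inv_tendsto_atTop.smul_const Y)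
      obtain ⟨N, hN, hN0⟩ := ((ht.eventually (closedBall_mem_nhds 1 hr)).and
        (eventually_gt_atTop 0)).exists
      obtain ⟨hz1, h1⟩ := hQ _ hN
      set z₁ := s (exp ((N : ℝ)⁻¹ • Y))
      set l₁ := L.map fun p => (p.1, p.2 (exp ((N : ℝ)⁻¹ • Y)))
      have hpow : ∀ n : ℕ, ∃ w ∈ Z, ∃ l', exp w * word K l' = exp ((N : ℝ)⁻¹ • Y) ^ n := by
        intro n
        induction n with
        | zero => exact ⟨0, Z.zero_mem, [], by simp⟩
        | succ n ihn =>
          obtain ⟨w, hw, l', hl'⟩ := ihn
          refine ⟨w + z₁, Z.add_mem hw hz1, l' ++ l₁, ?_⟩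
          rw [pow_succ, ← hl', ← h1, word_append, exp_add' (hZ w hw z₁), mul_assoc, mul_assoc,
            ← mul_assoc (word K l'), ← ((hZ z₁ hz1 (word K l')).exp_left).eq, mul_assoc]
      obtain ⟨w, hw, l', hl'⟩ := hpow N
      have hY : exp ((N : ℝ)⁻¹ • Y) ^ N = exp Y := by
        let _ := NormedAlgebra.restrictScalars ℚ ℝ A
        rw [← exp_nsmul, ← Nat.cast_smul_eq_nsmul ℝ, smul_smul,
          mul_inv_cancel₀ (Nat.cast_ne_zero.2 hN0.ne'), one_smul]
      refine ⟨w + z, Z.add_mem hw hz, l' ++ l, ?_⟩
      rw [List.map_cons, List.prod_cons, ← hl, ← hY, ← hl', word_append,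
        exp_add' (hZ w hw z), mul_assoc, mul_assoc, ← mul_assoc (word K l'),
        ← ((hZ z hz (word K l')).exp_left).eq, mul_assoc]
  obtain ⟨z, hz, l, hP⟩ := hrep Xs
  set P := (Xs.map exp).prod
  -- move the target to `1`
  set T : A → A := fun Q => exp (-z) * word K (wordInv l) * Q
  have hTc : Continuous T := continuous_const.mul continuous_id
  have hTP : T P = 1 := by
    simp only [T, ← hP]
    rw [mul_assoc, ← mul_assoc (word K (wordInv l)),
      ← ((hZ z hz (word K (wordInv l))).exp_left).eq, mul_assoc, word_wordInv_mul, mul_one,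
      exp_neg_mul]
  obtain ⟨r', hr', hball⟩ := nhds_basis_closedBall.mem_iff.1
    ((hTc.tendsto' P 1 hTP).eventually_mem (closedBall_mem_nhds (1 : A) hr))
  set L' : List (ι × (A → ℝ)) :=
    (l.map fun p => (p.1, fun _ => p.2)) ++ L.map fun p => (p.1, fun Q => p.2 (T Q))
  replace hball : MapsTo T (closedBall P r') (closedBall 1 r) := hball
  refine ⟨L'.length, fun k => L'[k].1, fun Q => z + s (T Q), fun Q k => L'[k].2 Q, r', hr',
    continuousOn_const.add (hs.comp hTc.continuousOn hball), continuousOn_pi.2 fun k => ?_,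
    fun Q hQQ => ⟨Z.add_mem hz (hQ _ (hball hQQ)).1, ?_⟩⟩
  · change ContinuousOn (L'[(k : ℕ)].2) _
    rcases List.mem_append.1 (List.getElem_mem k.2 : L'[(k : ℕ)] ∈ L') with h | h
    · obtain ⟨p, -, hp⟩ := List.mem_map.1 h
      rw [← hp]
      exact continuousOn_const
    · obtain ⟨p, hp0, hp⟩ := List.mem_map.1 h
      rw [← hp]
      exact (hL p hp0).comp hTc.continuousOn hball
  · obtain ⟨hs1, h1⟩ := hQ _ (hball hQQ)
    have hw : wordMap K (fun k : Fin L'.length => L'[k].1) (fun k => L'[k].2 Q) =
        word K (l ++ L.map fun p => (p.1, p.2 (T Q))) := by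
      rw [wordMap]
      congr 1
      refine (List.ofFn_getElem_eq_map L' fun p => (p.1, p.2 Q)).trans ?_
      simp [L', List.map_map, Function.comp_def]
    rw [hw, word_append, exp_add' (hZ z hz _), mul_assoc, ← mul_assoc (exp (s (T Q))),
      ((hZ _ hs1 (word K l)).exp_left).eq, mul_assoc, h1, ← mul_assoc, hP]
    change P * (exp (-z) * word K (wordInv l) * Q) = Q
    rw [← mul_assoc, ← mul_assoc, ← hP, mul_assoc (exp z),
      ← ((hZ (-z) (Z.neg_mem hz) (word K l)).exp_left).eq, ← mul_assoc (exp z), ← exp_add'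
      (hZ z hz (-z)), add_neg_cancel, exp_zero, one_mul, word_mul_wordInv, one_mul]

/-- Brouwer step: any continuous map uniformly close to the word map reaches the target exactly,
up to a central exponential. -/
theorem exists_exact [FiniteDimensional ℝ A] (K : ι → A) (Z : Submodule ℝ A)
    (hZ : ∀ z ∈ Z, ∀ x : A, Commute z x)
    (hgen : ∀ S : Submodule ℝ A, Z ≤ S → (∀ i, K i ∈ S) →
      (∀ i, ∀ X ∈ S, K i * X - X * K i ∈ S) → S = ⊤)
    (Xs : List A) :
    ∃ (M : ℕ) (idx : Fin M → ι) (R δ : ℝ), 0 < δ ∧ ∀ F : (Fin M → ℝ) → A,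
      ContinuousOn F (closedBall 0 R) →
      (∀ a ∈ closedBall (0 : Fin M → ℝ) R, ‖F a - wordMap K idx a‖ ≤ δ) →
      ∃ z ∈ Z, ‖z‖ ≤ R ∧ ∃ a ∈ closedBall (0 : Fin M → ℝ) R,
        exp z * F a = (Xs.map exp).prod := by
  have : ProperSpace A := FiniteDimensional.proper_real A
  obtain ⟨M, idx, s, a, r, hr, hs, ha, hQ⟩ := exists_section K Z hZ hgen Xs
  set P := (Xs.map exp).prod
  have hK := isCompact_closedBall P r
  obtain ⟨R₁, hR₁⟩ := (hK.image_of_continuousOn ha).isBounded.subset_closedBall 0
  obtain ⟨R₂, hR₂⟩ := hK.exists_bound_of_continuousOn hs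
  obtain ⟨C, hC⟩ := hK.exists_bound_of_continuousOn (continuous_exp'.comp_continuousOn hs)
  refine ⟨M, idx, max R₁ R₂, r / (max C 0 + 1), by positivity, fun F hF hclose => ?_⟩
  have haR : MapsTo a (closedBall P r) (closedBall 0 (max R₁ R₂)) := fun Q hQ' =>
    closedBall_subset_closedBall (le_max_left _ _) (hR₁ (mem_image_of_mem a hQ'))
  obtain ⟨Q, hQ', hfix⟩ := Common.Brouwer.exists_fixed hK (convex_closedBall P r)
    ⟨P, mem_closedBall_self hr.le⟩ (f := fun Q => Q - (exp (s Q) * F (a Q) - P))
    (continuousOn_id.sub (((continuous_exp'.comp_continuousOn hs).mul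
      (hF.comp ha haR)).sub continuousOn_const))
    (fun Q hQ' => by
      have h := (hQ Q hQ').2
      have e1 : Q - (exp (s Q) * F (a Q) - P) - P =
          -(exp (s Q) * (F (a Q) - wordMap K idx (a Q))) := by
        rw [mul_sub, h]; abel
      rw [mem_closedBall, dist_eq_norm, e1, norm_neg]
      refine (norm_mul_le _ _).trans ?_
      calc ‖exp (s Q)‖ * ‖F (a Q) - wordMap K idx (a Q)‖
          ≤ (max C 0 + 1) * (r / (max C 0 + 1)) := by
            refine mul_le_mul ?_ (hclose _ (haR hQ')) (norm_nonneg _) (by positivity)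
            exact (hC Q hQ').trans (by linarith [le_max_left C 0])
        _ = r := by field_simp)
  exact ⟨s Q, (hQ Q hQ').1, (hR₂ Q hQ').trans (le_max_right _ _), a Q, haR hQ',
    sub_eq_zero.1 (by simpa using hfix)⟩

end Vale.Agent.P225.Switch
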