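import Vale.Agent.P225.Calc

/-! # The radial profile of a rotationally symmetric metric with nonnegative Ricci curvature -/

namespace Vale.Agent.P225

open scoped Laplacian
open InnerProductSpace MeasureTheory Filter Topology

variable {n : ℕ}

/-- The first standard unit vector. -/
noncomputable def axis (hn : 0 < n) : Euc n := unit ⟨0, hn⟩

theorem norm_axis (hn : 0 < n) : ‖axis hn‖ = 1 := norm_unit _

theorem norm_smul_axis (hn : 0 < n) {r : ℝ} (hr : 0 ≤ r) : ‖r • axis hn‖ = r := by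
  simp [norm_smul, norm_axis, abs_of_nonneg hr]

/-- The profile of a radial function. -/
noncomputable def profile (hn : 0 < n) (Φ : Euc n → ℝ) (r : ℝ) : ℝ := Φ (r • axis hn)

theorem contDiff_profile (hn : 0 < n) {Φ : Euc n → ℝ} {m : WithTop ℕ∞} (hΦ : ContDiff ℝ m Φ) :
    ContDiff ℝ m (profile hn Φ) :=
  hΦ.comp (contDiff_id.smul contDiff_const)

theorem eq_profile_norm (hn : 0 < n) {Φ : Euc n → ℝ} (hrad : ∀ x y, ‖x‖ = ‖y‖ → Φ x = Φ y)
    (x : Euc n) : Φ x = profile hn Φ ‖x‖ :=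
  hrad _ _ (norm_smul_axis hn (norm_nonneg x)).symm

/-- `phi'(r) / r`. -/
noncomputable def slope1 (φ : ℝ → ℝ) (r : ℝ) : ℝ := deriv φ r / r

theorem contDiff_deriv {φ : ℝ → ℝ} (hφ : ContDiff ℝ 2 φ) : ContDiff ℝ 1 (deriv φ) := by
  exact (contDiff_succ_iff_deriv (n := 1)).1 hφ |>.2.2

theorem hasDerivAt_of_contDiff_two {φ : ℝ → ℝ} (hφ : ContDiff ℝ 2 φ) (r : ℝ) :
    HasDerivAt φ (deriv φ r) r ∧ HasDerivAt (deriv φ) (deriv (deriv φ) r) r :=
  ⟨(hφ.differentiable (by norm_num)).differentiableAt.hasDerivAt,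
    ((contDiff_deriv hφ).differentiable (by norm_num)).differentiableAt.hasDerivAt⟩

theorem pd_of_radial (hn : 0 < n) {Φ : Euc n → ℝ} (hΦ : ContDiff ℝ 2 Φ)
    (hrad : ∀ x y, ‖x‖ = ‖y‖ → Φ x = Φ y) {x : Euc n} (hx : x ≠ 0) (i : Fin n) :
    pd i Φ x = deriv (profile hn Φ) ‖x‖ * x i / ‖x‖ := by
  have h : Φ = fun y => profile hn Φ ‖y‖ := funext (eq_profile_norm hn hrad)
  conv_lhs => rw [h]
  exact pd_radial hx (hasDerivAt_of_contDiff_two (contDiff_profile hn hΦ) _).1 i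

theorem pd_pd_of_radial (hn : 0 < n) {Φ : Euc n → ℝ} (hΦ : ContDiff ℝ 2 Φ)
    (hrad : ∀ x y, ‖x‖ = ‖y‖ → Φ x = Φ y) {x : Euc n} (hx : x ≠ 0) (i : Fin n) :
    pd i (pd i Φ) x = (deriv (deriv (profile hn Φ)) ‖x‖ - deriv (profile hn Φ) ‖x‖ / ‖x‖)
        / ‖x‖ ^ 2 * x i ^ 2 + deriv (profile hn Φ) ‖x‖ / ‖x‖ := by
  set φ := profile hn Φ with hφdef
  have hφ : ContDiff ℝ 2 φ := contDiff_profile hn hΦ
  have hx' : ‖x‖ ≠ 0 := norm_ne_zero_iff.2 hx
  have h : Φ = fun y => φ ‖y‖ := funext (eq_profile_norm hn hrad)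
  have hg : ∀ r, 0 < r → HasDerivAt φ (slope1 φ r * r) r := fun r hr => by
    have : slope1 φ r * r = deriv φ r := by unfold slope1; field_simp
    rw [this]; exact (hasDerivAt_of_contDiff_two hφ r).1
  have hk : HasDerivAt (slope1 φ)
      ((deriv (deriv φ) ‖x‖ * ‖x‖ - deriv φ ‖x‖ * 1) / ‖x‖ ^ 2) ‖x‖ :=
    (hasDerivAt_of_contDiff_two hφ _).2.div (hasDerivAt_id _) hx'
  conv_lhs => rw [h]
  rw [pd_pd_radial hx hg hk i, slope1]
  field_simp

theorem deriv_mul_profile_nonpos (hn : 2 ≤ n) {Φ : Euc n → ℝ} (hΦ : ContDiff ℝ 2 Φ)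
    (hrad : ∀ x y, ‖x‖ = ‖y‖ → Φ x = Φ y) (hric : ∀ x v, 0 ≤ ricci Φ x v)
    {r : ℝ} (hr : 0 ≤ r) : r * deriv (profile (by omega) Φ) r ≤ 0 := by
  have hn0 : 0 < n := by omega
  set φ := profile hn0 Φ with hφdef
  have hφ : ContDiff ℝ 2 φ := contDiff_profile hn0 hΦ
  have key : ∀ s, 0 < s → deriv φ s + s * deriv (deriv φ) s ≤ 0 := by
    intro s hs
    set x := s • axis hn0 with hxdef
    have hnx : ‖x‖ = s := norm_smul_axis hn0 hs.le
    have hx : x ≠ 0 := norm_ne_zero_iff.1 (by rw [hnx]; exact hs.ne')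
    have hxi : ∀ i : Fin n, x i = if i = ⟨0, hn0⟩ then s else 0 := by
      intro i
      simp [hxdef, axis, unit_apply]
    have h1 := hric x (axis hn0)
    have hpd : ∀ i : Fin n, pd i Φ x = if i = ⟨0, hn0⟩ then deriv φ s else 0 := by
      intro i
      rw [pd_of_radial hn0 hΦ hrad hx i, hnx, hxi]
      split_ifs
      · rw [mul_div_assoc, div_self hs.ne', mul_one]
      · rw [mul_zero, zero_div]
    have hpp : ∀ i : Fin n, pd i (pd i Φ) x
        = deriv φ s / s + if i = ⟨0, hn0⟩ then deriv (deriv φ) s - deriv φ s / s else 0 := by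
      intro i
      rw [pd_pd_of_radial hn0 hΦ hrad hx i, hnx, hxi, ← hφdef]
      split_ifs
      · field_simp; ring
      · simp
    have hlap : (Δ Φ) x = deriv (deriv φ) s + ((n : ℝ) - 1) * (deriv φ s / s) := by
      rw [laplacian_eq_sum_pd hΦ, Finset.sum_congr rfl (fun i _ => hpp i), Finset.sum_add_distrib]
      simp
      ring
    have hgr : ‖gradient Φ x‖ ^ 2 = deriv φ s ^ 2 := by
      rw [norm_gradient_sq, Finset.sum_congr rfl (fun i _ => by rw [hpd i])]
      simp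
    have hh : iteratedFDeriv ℝ 2 Φ x ![axis hn0, axis hn0] = deriv (deriv φ) s := by
      rw [axis, ← pd_pd_eq hΦ, hpp]
      simp
    have hf : fderiv ℝ Φ x (axis hn0) = deriv φ s := by
      rw [show fderiv ℝ Φ x (axis hn0) = pd ⟨0, hn0⟩ Φ x from rfl, hpd]
      simp
    rw [ricci, hlap, hgr, hh, hf, norm_axis] at h1
    have h2 : ((n : ℝ) - 1) * (deriv (deriv φ) s + deriv φ s / s) ≤ 0 := by linarith
    have h3 : (0 : ℝ) < (n : ℝ) - 1 := by
      have : (2 : ℝ) ≤ n := by exact_mod_cast hn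
      linarith
    have h4 : deriv (deriv φ) s + deriv φ s / s ≤ 0 := by
      by_contra hc
      push Not at hc
      nlinarith [mul_pos h3 hc]
    have h5 := mul_le_mul_of_nonneg_left h4 hs.le
    rw [mul_add, mul_div_cancel₀ _ hs.ne', mul_zero] at h5
    linarith
  have hd : ∀ s, HasDerivAt (fun t => t * deriv φ t) (1 * deriv φ s + s * deriv (deriv φ) s) s :=
    fun s => (hasDerivAt_id s).mul (hasDerivAt_of_contDiff_two hφ s).2
  have hanti : AntitoneOn (fun t => t * deriv φ t) (Set.Ici 0) := by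
    refine antitoneOn_of_deriv_nonpos (convex_Ici 0)
      (fun s _ => (hd s).continuousAt.continuousWithinAt)
      (fun s _ => (hd s).differentiableAt.differentiableWithinAt) fun s hs => ?_
    rw [interior_Ici] at hs
    rw [(hd s).deriv, one_mul]
    exact key s hs
  simpa using hanti Set.self_mem_Ici hr hr

/-- The radial distance `∫_0^r exp φ`. -/
noncomputable def rdist (φ : ℝ → ℝ) (r : ℝ) : ℝ := ∫ t in (0 : ℝ)..r, Real.exp (φ t)

theorem hasDerivAt_rdist {φ : ℝ → ℝ} (hφ : Continuous φ) (r : ℝ) :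
    HasDerivAt (rdist φ) (Real.exp (φ r)) r :=
  ((Real.continuous_exp.comp hφ).integral_hasStrictDerivAt 0 r).hasDerivAt

theorem rdist_zero (φ : ℝ → ℝ) : rdist φ 0 = 0 := by simp [rdist]

theorem segLength_eq (hn : 0 < n) {Φ : Euc n → ℝ} (hrad : ∀ x y, ‖x‖ = ‖y‖ → Φ x = Φ y)
    (x : Euc n) : segLength Φ x = rdist (profile hn Φ) ‖x‖ := by
  have h : ∀ t ∈ Set.uIcc (0 : ℝ) 1,
      Real.exp (Φ (t • x)) = Real.exp (profile hn Φ (t * ‖x‖)) := by
    intro t ht
    rw [Set.uIcc_of_le zero_le_one] at ht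
    rw [eq_profile_norm hn hrad (t • x), norm_smul, Real.norm_eq_abs, abs_of_nonneg ht.1]
  rw [segLength, intervalIntegral.integral_congr h, rdist]
  have := intervalIntegral.smul_integral_comp_mul_right (a := 0) (b := 1)
    (fun t => Real.exp (profile hn Φ t)) ‖x‖
  simp only [smul_eq_mul, zero_mul, one_mul] at this
  rw [← this, mul_comm]

theorem rdist_pos {φ : ℝ → ℝ} (hφ : Continuous φ) {r : ℝ} (hr : 0 < r) : 0 < rdist φ r :=
  intervalIntegral.intervalIntegral_pos_of_pos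
    ((Real.continuous_exp.comp hφ).intervalIntegrable _ _) (fun t => Real.exp_pos _) hr

theorem mul_exp_le_rdist {φ : ℝ → ℝ} (hφ : ContDiff ℝ 2 φ)
    (hp : ∀ r, 0 ≤ r → r * deriv φ r ≤ 0) {r : ℝ} (hr : 0 ≤ r) :
    r * Real.exp (φ r) ≤ rdist φ r := by
  have hd : ∀ s, HasDerivAt (fun t => rdist φ t - t * Real.exp (φ t))
      (Real.exp (φ s) - (1 * Real.exp (φ s) + s * (Real.exp (φ s) * deriv φ s))) s := fun s =>
    (hasDerivAt_rdist hφ.continuous s).sub
      ((hasDerivAt_id s).mul (hasDerivAt_of_contDiff_two hφ s).1.exp)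
  have hmono : MonotoneOn (fun t => rdist φ t - t * Real.exp (φ t)) (Set.Ici 0) := by
    refine monotoneOn_of_deriv_nonneg (convex_Ici 0)
      (fun s _ => (hd s).continuousAt.continuousWithinAt)
      (fun s _ => (hd s).differentiableAt.differentiableWithinAt) fun s hs => ?_
    rw [interior_Ici] at hs
    rw [(hd s).deriv]
    have := mul_le_mul_of_nonneg_left (hp s (le_of_lt hs)) (Real.exp_pos (φ s)).le
    linarith
  have := hmono Set.self_mem_Ici hr hr
  simp only [rdist_zero, zero_mul, sub_zero] at this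
  linarith

theorem tendsto_rdist (hn : 0 < n) {Φ : Euc n → ℝ} (hrad : ∀ x y, ‖x‖ = ‖y‖ → Φ x = Φ y)
    (hcomp : Tendsto (segLength Φ) (cocompact (Euc n)) atTop) :
    Tendsto (rdist (profile hn Φ)) atTop atTop := by
  have h1 : Tendsto (fun r : ℝ => r • axis hn) atTop (cocompact (Euc n)) := by
    apply tendsto_cocompact_of_tendsto_dist_comp_atTop (0 : Euc n)
    simp only [dist_zero_right, norm_smul, norm_axis, mul_one]
    exact tendsto_norm_atTop_atTop
  refine (hcomp.comp h1).congr' ?_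
  filter_upwards [eventually_ge_atTop 0] with r hr
  rw [Function.comp_apply, segLength_eq hn hrad, norm_smul_axis hn hr]

end Vale.Agent.P225
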