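import Vale.Agent.P225.Sphere
import Vale.Agent.P225.Metric

/-! # The ordinary differential equation satisfied by a projection -/

namespace Vale.Agent.P225

open MeasureTheory Filter Topology Metric

variable {n : ℕ}

/-- The weight `exp ((n - 2) φ)`. -/
noncomputable def wt (n : ℕ) (φ : ℝ → ℝ) (r : ℝ) : ℝ := Real.exp (((n : ℝ) - 2) * φ r)

theorem contDiff_wt {φ : ℝ → ℝ} {m : WithTop ℕ∞} (hφ : ContDiff ℝ m φ) :
    ContDiff ℝ m (wt n φ) :=
  Real.contDiff_exp.comp (contDiff_const.mul hφ)

theorem hasDerivAt_wt {φ : ℝ → ℝ} (hφ : ContDiff ℝ 2 φ) (r : ℝ) :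
    HasDerivAt (wt n φ) (wt n φ r * (((n : ℝ) - 2) * deriv φ r)) r :=
  ((hasDerivAt_of_contDiff_two hφ r).1.const_mul _).exp

theorem contDiff_expWeight {Φ : Euc n → ℝ} (hΦ : ContDiff ℝ 2 Φ) :
    ContDiff ℝ 2 (fun x => Real.exp (((n : ℝ) - 2) * Φ x)) :=
  Real.contDiff_exp.comp (contDiff_const.mul hΦ)

theorem pd_expWeight {Φ : Euc n → ℝ} (hΦ : ContDiff ℝ 2 Φ) (i : Fin n) (x : Euc n) :
    pd i (fun y => Real.exp (((n : ℝ) - 2) * Φ y)) x
      = Real.exp (((n : ℝ) - 2) * Φ x) * (((n : ℝ) - 2) * pd i Φ x) := by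
  have h := (((hΦ.differentiable (by norm_num)).differentiableAt (x := x)).hasFDerivAt.const_mul
    ((n : ℝ) - 2)).exp
  simp only [pd, h.fderiv]
  simp

theorem integral_mul_pd {f g : Euc n → ℝ} (hf : ContDiff ℝ 1 f) (hg : ContDiff ℝ 1 g)
    (hgc : HasCompactSupport g) (i : Fin n) :
    ∫ x, f x * pd i g x = - ∫ x, pd i f x * g x := by
  have hcf : Continuous (pd i f) := (hf.continuous_fderiv (by norm_num)).clm_apply continuous_const
  have hcg : Continuous (pd i g) := (hg.continuous_fderiv (by norm_num)).clm_apply continuous_const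
  refine integral_mul_fderiv_eq_neg_fderiv_mul_of_integrable ?_ ?_ ?_
    (fun x _ => (hf.differentiable (by norm_num)).differentiableAt)
    (fun x _ => (hg.differentiable (by norm_num)).differentiableAt)
  · exact (hcf.mul hg.continuous).integrable_of_hasCompactSupport hgc.mul_left
  · exact (hf.continuous.mul hcg).integrable_of_hasCompactSupport
      ((hgc.fderiv_apply ℝ (unit i)).mul_left)
  · exact (hf.continuous.mul hg.continuous).integrable_of_hasCompactSupport hgc.mul_left

theorem weak_identity {Φ u F : Euc n → ℝ} (hΦ : ContDiff ℝ 2 Φ) (hu : ContDiff ℝ 2 u)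
    (hharm : IsHarmonic Φ u) (hF : ContDiff ℝ 2 F) (hFc : HasCompactSupport F) :
    ∫ x, u x * ∑ i, pd i (fun y => Real.exp (((n : ℝ) - 2) * Φ y) * pd i F y) x = 0 := by
  set a : Euc n → ℝ := fun y => Real.exp (((n : ℝ) - 2) * Φ y) with ha_def
  have ha : ContDiff ℝ 1 a := (contDiff_expWeight hΦ).of_le (by norm_num)
  have hF1 : ∀ i, ContDiff ℝ 1 (pd i F) := fun i => contDiff_pd (m := 1) i hF
  have hu1 : ∀ i, ContDiff ℝ 1 (pd i u) := fun i => contDiff_pd (m := 1) i hu
  have hFs : ∀ i, HasCompactSupport (pd i F) := fun i => hFc.fderiv_apply ℝ (unit i)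
  have hcont : ∀ i, Continuous (pd i (fun y => a y * pd i F y)) := fun i =>
    ((ha.mul (hF1 i)).continuous_fderiv (by norm_num)).clm_apply continuous_const
  have hint : ∀ i, Integrable fun x => u x * pd i (fun y => a y * pd i F y) x := fun i =>
    (hu.continuous.mul (hcont i)).integrable_of_hasCompactSupport
      ((((hFs i).mul_left).fderiv_apply ℝ (unit i)).mul_left)
  have hint2 : ∀ i, Integrable fun x => pd i (fun y => a y * pd i u y) x * F x := fun i =>
    ((((ha.mul (hu1 i)).continuous_fderiv (by norm_num)).clm_apply continuous_const).mul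
      hF.continuous).integrable_of_hasCompactSupport hFc.mul_left
  have hstep : ∀ i, ∫ x, u x * pd i (fun y => a y * pd i F y) x
      = ∫ x, pd i (fun y => a y * pd i u y) x * F x := by
    intro i
    rw [integral_mul_pd (hu.of_le (by norm_num)) (ha.mul (hF1 i)) (hFs i).mul_left i]
    have h := integral_mul_pd (ha.mul (hu1 i)) (hF.of_le (by norm_num)) hFc i
    have e : (fun x => pd i u x * (a x * pd i F x)) = fun x => a x * pd i u x * pd i F x := by
      funext x; ring
    rw [e, h, neg_neg]
  simp only [Finset.mul_sum]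
  rw [integral_finsetSum _ (fun i _ => hint i), Finset.sum_congr rfl (fun i _ => hstep i),
    ← integral_finsetSum _ (fun i _ => hint2 i)]
  refine integral_eq_zero_of_ae (Eventually.of_forall fun x => ?_)
  simp only [Pi.zero_apply]
  rw [← Finset.sum_mul]
  have hz : ∑ i, pd i (fun y => a y * pd i u y) x = 0 := by
    have h := (isHarmonic_iff hu).1 hharm x
    have e : ∀ i, pd i (fun y => a y * pd i u y) x
        = a x * (pd i (pd i u) x + ((n : ℝ) - 2) * (pd i Φ x * pd i u x)) := by
      intro i
      rw [pd_mul (ha.differentiable (by norm_num)).differentiableAt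
        ((hu1 i).differentiable (by norm_num)).differentiableAt, ha_def, pd_expWeight hΦ]
      ring
    rw [Finset.sum_congr rfl (fun i _ => e i), ← Finset.mul_sum, h, mul_zero]
  rw [hz, zero_mul]

theorem radial_operator {l : ℕ} {p : Poly n} (hp : p.IsHomogeneous l) (hlap : plap n p = 0)
    {b1 b2 : ℝ → ℝ} {x : Euc n} (hx : x ≠ 0) {d1 d2 : ℝ}
    (h1 : HasDerivAt b1 d1 ‖x‖) (h2 : HasDerivAt b2 d2 ‖x‖) :
    ∑ i, pd i (fun y => ev (MvPolynomial.pderiv i p) y * b1 ‖y‖ + ev p y * y i * b2 ‖y‖) x
      = ev p x * ((l : ℝ) * (d1 / ‖x‖) + ((l : ℝ) + n) * b2 ‖x‖ + ‖x‖ * d2) := by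
  have hx' : ‖x‖ ≠ 0 := norm_ne_zero_iff.2 hx
  have hterm : ∀ i, pd i (fun y => ev (MvPolynomial.pderiv i p) y * b1 ‖y‖
        + ev p y * y i * b2 ‖y‖) x
      = ev (MvPolynomial.pderiv i (MvPolynomial.pderiv i p)) x * b1 ‖x‖
        + (x i * ev (MvPolynomial.pderiv i p) x) * (d1 / ‖x‖ + b2 ‖x‖)
        + ev p x * b2 ‖x‖ + (x i * x i) * (ev p x * d2 / ‖x‖) := by
    intro i
    have hb1 := (hasFDerivAt_radial hx h1).differentiableAt
    have hb2 := (hasFDerivAt_radial hx h2).differentiableAt
    have hc := (hasFDerivAt_coord i x).differentiableAt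
    rw [pd_add ((differentiableAt_ev _ x).fun_mul hb1)
        (((differentiableAt_ev _ x).fun_mul hc).fun_mul hb2),
      pd_mul (differentiableAt_ev _ x) hb1, pd_mul ((differentiableAt_ev _ x).fun_mul hc) hb2,
      pd_mul (differentiableAt_ev _ x) hc, pd_ev, pd_ev, pd_radial hx h1, pd_radial hx h2,
      pd_coord]
    simp
    ring
  have hE : ∑ i, x i * ev (MvPolynomial.pderiv i p) x = l * ev p x := by
    have := congrArg (fun q => ev q x) hp.sum_X_mul_pderiv
    simpa [ev, map_sum, nsmul_eq_mul] using this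
  have hL : ∑ i, ev (MvPolynomial.pderiv i (MvPolynomial.pderiv i p)) x = 0 := by
    have := congrArg (fun q => ev q x) hlap
    simpa [ev, plap_apply, map_sum] using this
  rw [Finset.sum_congr rfl (fun i _ => hterm i)]
  simp only [Finset.sum_add_distrib, ← Finset.sum_mul, hE, hL, sum_mul_self, Finset.sum_const,
    Finset.card_univ, Fintype.card_fin, nsmul_eq_mul]
  field_simp
  ring

theorem integral_mul_deriv_cpt {f f' g g' : ℝ → ℝ} (hf : ∀ r, HasDerivAt f (f' r) r)
    (hg : ∀ r, HasDerivAt g (g' r) r) (hf' : Continuous f') (hg' : Continuous g')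
    (hgc : HasCompactSupport g) (hgc' : HasCompactSupport g') :
    ∫ r, f r * g' r = - ∫ r, f' r * g r := by
  have hfc : Continuous f := continuous_iff_continuousAt.2 fun r => (hf r).continuousAt
  have hgcont : Continuous g := continuous_iff_continuousAt.2 fun r => (hg r).continuousAt
  exact integral_mul_deriv_eq_deriv_mul_of_integrable (fun r _ => hf r) (fun r _ => hg r)
    ((hfc.mul hg').integrable_of_hasCompactSupport hgc'.mul_left)
    ((hf'.mul hgcont).integrable_of_hasCompactSupport hgc.mul_left)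
    ((hfc.mul hgcont).integrable_of_hasCompactSupport hgc.mul_left)

theorem proj_ode (hn : 2 ≤ n) {Φ u : Euc n → ℝ} (hΦ : ContDiff ℝ 2 Φ)
    (hrad : ∀ x y, ‖x‖ = ‖y‖ → Φ x = Φ y) (hu : ContDiff ℝ 2 u) (hharm : IsHarmonic Φ u)
    {l : ℕ} (hl : 1 ≤ l) {p : Poly n} (hp : p.IsHomogeneous l) (hlap : plap n p = 0)
    {r : ℝ} (hr : 0 < r) :
    deriv (deriv (proj p u)) r
      + (((n : ℝ) - 1) / r + ((n : ℝ) - 2) * deriv (profile (by omega) Φ) r) * deriv (proj p u) r
      - (l : ℝ) * ((l : ℝ) + n - 2) / r ^ 2 * proj p u r = 0 := by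
  have hn0 : 0 < n := by omega
  set φ := profile hn0 Φ with hφdef
  have hφ : ContDiff ℝ 2 φ := contDiff_profile hn0 hΦ
  set a := wt n φ with ha_def
  have ha : ContDiff ℝ 2 a := contDiff_wt hφ
  set c := proj p u with hc_def
  have hc : ContDiff ℝ 2 c := contDiff_proj hu p
  obtain ⟨q, hq⟩ : ∃ q : ℕ, n + l = q + 3 := ⟨n + l - 3, by omega⟩
  have hqr : (q : ℝ) = (n : ℝ) + l - 3 := by
    have : ((n + l : ℕ) : ℝ) = ((q + 3 : ℕ) : ℝ) := by rw [hq]
    push_cast at this; linarith
  have hca : Continuous (deriv a) := (contDiff_deriv ha).continuous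
  have hcc : Continuous (deriv c) := (contDiff_deriv hc).continuous
  have hcc2 : Continuous (deriv (deriv c)) :=
    (contDiff_deriv hc).continuous_deriv (by norm_num)
  set g : ℝ → ℝ := fun s =>
    (((q : ℝ) + 2) * s ^ (q + 1) * a s + s ^ (q + 2) * deriv a s) * deriv c s
      + s ^ (q + 2) * a s * deriv (deriv c) s
      - (l : ℝ) * a s * (deriv c s * s ^ (q + 1) + c s * (((q : ℝ) + 1) * s ^ q)) with hg_def
  have hgcont : Continuous g := by
    have := ha.continuous; have := hc.continuous
    rw [hg_def]; fun_prop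
  have key : ∀ h : ℝ → ℝ, ContDiff ℝ (⊤ : ℕ∞) h → HasCompactSupport h → tsupport h ⊆ Set.Ioi 0 →
      ∫ s, h s * g s = 0 := by
    intro h hsm hcs hsub
    have h2 : ContDiff ℝ 2 h := hsm.of_le (WithTop.coe_le_coe.2 le_top)
    have hh1 : ∀ s, HasDerivAt h (deriv h s) s ∧ HasDerivAt (deriv h) (deriv (deriv h) s) s :=
      hasDerivAt_of_contDiff_two h2
    have hch : Continuous (deriv h) := (contDiff_deriv h2).continuous
    have hch2 : Continuous (deriv (deriv h)) :=
      (contDiff_deriv h2).continuous_deriv (by norm_num)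
    obtain ⟨ε, hε, hεsub⟩ : ∃ ε, 0 < ε ∧ ∀ s ≤ ε, h =ᶠ[𝓝 s] fun _ => 0 := by
      have hclosed : IsOpen (tsupport h)ᶜ := (isClosed_tsupport h).isOpen_compl
      have h0 : (0 : ℝ) ∈ (tsupport h)ᶜ := fun h0 => lt_irrefl (0 : ℝ) (hsub h0)
      obtain ⟨δ, hδ, hball⟩ := Metric.isOpen_iff.1 hclosed 0 h0
      refine ⟨δ / 2, by linarith, fun s hs => notMem_tsupport_iff_eventuallyEq.1 fun hmem => ?_⟩
      have hpos : 0 < s := hsub hmem
      exact hball (by simp [abs_of_pos hpos]; linarith) hmem
    have hz : ∀ s ≤ ε, h s = 0 ∧ deriv h s = 0 ∧ deriv (deriv h) s = 0 := by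
      intro s hs
      have he := hεsub s hs
      have he' : deriv h =ᶠ[𝓝 s] fun _ => (0 : ℝ) := by simpa using he.deriv
      exact ⟨he.eq_of_nhds, he'.eq_of_nhds, by rw [he'.deriv_eq]; simp⟩
    set F : Euc n → ℝ := fun x => ev p x * h ‖x‖ with hF_def
    have hnear : ∀ x : Euc n, ‖x‖ < ε → F =ᶠ[𝓝 x] fun _ => 0 := by
      intro x hx
      filter_upwards [(isOpen_lt continuous_norm continuous_const).mem_nhds hx] with y hy
      simp [hF_def, (hz ‖y‖ (le_of_lt hy)).1]
    have hF : ContDiff ℝ 2 F := by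
      refine contDiff_iff_contDiffAt.2 fun x => ?_
      by_cases hx : x = 0
      · subst hx
        exact contDiffAt_const.congr_of_eventuallyEq (hnear 0 (by simpa using hε))
      · exact (contDiff_ev p).contDiffAt.mul (h2.contDiffAt.comp x (contDiffAt_norm ℝ hx))
    have hFc : HasCompactSupport F := by
      obtain ⟨R, hR⟩ := hcs.isCompact.bddAbove
      refine HasCompactSupport.intro (isCompact_closedBall (0 : Euc n) R) fun x hx => ?_
      have : ‖x‖ ∉ tsupport h := fun hm => hx (by simpa using hR hm)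
      simp [hF_def, image_eq_zero_of_notMem_tsupport this]
    set G : ℝ → ℝ := fun s => (l : ℝ) * ((deriv a s * h s + a s * deriv h s) / s)
      + ((l : ℝ) + n) * (a s * deriv h s / s)
      + s * (((deriv a s * deriv h s + a s * deriv (deriv h) s) * s - a s * deriv h s) / s ^ 2)
      with hG_def
    have hGz : ∀ s ≤ ε, G s = 0 := by
      intro s hs
      obtain ⟨z0, z1, z2⟩ := hz s hs
      simp [hG_def, z0, z1, z2]
    have hop : ∀ x : Euc n,
        ∑ i, pd i (fun y => Real.exp (((n : ℝ) - 2) * Φ y) * pd i F y) x = ev p x * G ‖x‖ := by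
      intro x
      by_cases hx : ‖x‖ < ε
      · rw [hGz _ hx.le, mul_zero]
        refine Finset.sum_eq_zero fun i _ => ?_
        have h0 : (fun y => Real.exp (((n : ℝ) - 2) * Φ y) * pd i F y) =ᶠ[𝓝 x] fun _ => 0 := by
          filter_upwards [(isOpen_lt continuous_norm continuous_const).mem_nhds hx] with y hy
          rw [pd_congr (hnear y hy) i]
          simp [pd]
        rw [pd_congr h0]
        simp [pd]
      · have hx0 : x ≠ 0 := by
          intro h0; apply hx; simpa [h0] using hε
        have hxn : ‖x‖ ≠ 0 := norm_ne_zero_iff.2 hx0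
        have hD1 : HasDerivAt (fun s => a s * h s)
            (deriv a ‖x‖ * h ‖x‖ + a ‖x‖ * deriv h ‖x‖) ‖x‖ :=
          (hasDerivAt_of_contDiff_two ha _).1.mul (hh1 _).1
        have hD2 : HasDerivAt (fun s => a s * deriv h s / s)
            (((deriv a ‖x‖ * deriv h ‖x‖ + a ‖x‖ * deriv (deriv h) ‖x‖) * ‖x‖
              - a ‖x‖ * deriv h ‖x‖ * 1) / ‖x‖ ^ 2) ‖x‖ :=
          (((hasDerivAt_of_contDiff_two ha _).1.mul (hh1 _).2)).div (hasDerivAt_id _) hxn
        rw [mul_one] at hD2
        have he : ∀ i, pd i (fun y => Real.exp (((n : ℝ) - 2) * Φ y) * pd i F y) x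
            = pd i (fun y => ev (MvPolynomial.pderiv i p) y * (a ‖y‖ * h ‖y‖)
                + ev p y * y i * (a ‖y‖ * deriv h ‖y‖ / ‖y‖)) x := by
          intro i
          refine pd_congr ?_ i
          filter_upwards [eventually_ne_zero hx0] with y hy
          rw [hF_def, pd_mul (differentiableAt_ev p y)
            (hasFDerivAt_radial hy (hh1 _).1).differentiableAt, pd_ev,
            pd_radial hy (hh1 _).1, eq_profile_norm hn0 hrad y, ha_def]
          simp only [wt, ← hφdef]
          ring
        rw [Finset.sum_congr rfl (fun i _ => he i)]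
        exact radial_operator hp hlap hx0 hD1 hD2
    have hw := weak_identity hΦ hu hharm hF hFc
    simp only [hop] at hw
    have hint : Integrable fun x => u x * (ev p x * G ‖x‖) := by
      have hcont : Continuous fun x => u x * (ev p x * G ‖x‖) := by
        have e : (fun x => u x * (ev p x * G ‖x‖)) = fun x => u x *
            ∑ i, pd i (fun y => Real.exp (((n : ℝ) - 2) * Φ y) * pd i F y) x := by
          funext x; rw [hop]
        rw [e]
        refine hu.continuous.mul (continuous_finsetSum _ fun i _ => ?_)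
        exact ((((contDiff_expWeight hΦ).of_le (by norm_num)).mul
          (contDiff_pd (m := 1) i hF)).continuous_fderiv (by norm_num)).clm_apply continuous_const
      obtain ⟨R, hR⟩ := hcs.isCompact.bddAbove
      refine hcont.integrable_of_hasCompactSupport
        (HasCompactSupport.intro (isCompact_closedBall (0 : Euc n) R) fun x hx => ?_)
      have hm : ‖x‖ ∉ tsupport h := fun hm => hx (by simpa using hR hm)
      have he := notMem_tsupport_iff_eventuallyEq.1 hm
      have he' : deriv h =ᶠ[𝓝 ‖x‖] fun _ => (0 : ℝ) := by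
        filter_upwards [he.deriv] with y hy
        rw [hy]; exact deriv_const y (0 : ℝ)
      have z0 : h ‖x‖ = 0 := he.eq_of_nhds
      have z1 : deriv h ‖x‖ = 0 := he'.eq_of_nhds
      have z2 : deriv (deriv h) ‖x‖ = 0 := by rw [he'.deriv_eq]; simp
      simp [hG_def, z0, z1, z2]
    rw [integral_polar hn0 _ hint] at hw
    set A : ℝ → ℝ := fun s =>
      (((q : ℝ) + 2) * s ^ (q + 1) * a s + s ^ (q + 2) * deriv a s) * deriv h s
        + s ^ (q + 2) * a s * deriv (deriv h) s with hA
    set B : ℝ → ℝ := fun s => deriv a s * h s + a s * deriv h s with hB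
    have hpow : ∀ s : ℝ, s ^ (n - 1) * s ^ l = s ^ (q + 2) := fun s => by
      rw [← pow_add, show n - 1 + l = q + 2 by omega]
    have hradial : ∀ s ∈ Set.Ioi (0 : ℝ),
        s ^ (n - 1) * ∫ θ : Sph n, u (s • (θ : Euc n)) *
          (ev p (s • (θ : Euc n)) * G ‖s • (θ : Euc n)‖) ∂surf n
        = c s * A s + (l : ℝ) * ((c s * s ^ (q + 1)) * B s) := by
      intro s hs
      have hs' : s ≠ 0 := (Set.mem_Ioi.1 hs).ne'
      have e : ∀ θ : Sph n, u (s • (θ : Euc n)) *
          (ev p (s • (θ : Euc n)) * G ‖s • (θ : Euc n)‖)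
          = (s ^ l * G s) * (u (s • (θ : Euc n)) * ev p θ) := by
        intro θ
        rw [ev_smul hp, norm_smul, norm_eq_of_mem_sphere θ, mul_one, Real.norm_eq_abs,
          abs_of_pos hs]
        ring
      rw [integral_congr_ae (Eventually.of_forall e), integral_const_mul, ← mul_assoc,
        ← mul_assoc, hpow]
      show s ^ (q + 2) * G s * c s = _
      simp only [hG_def, hA, hB]
      field_simp
      rw [hqr]
      ring
    rw [setIntegral_congr_fun measurableSet_Ioi hradial,
      setIntegral_eq_integral_of_forall_compl_eq_zero] at hw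
    swap
    · intro s hs
      obtain ⟨z0, z1, z2⟩ := hz s (by simp at hs; linarith)
      simp [hA, hB, z0, z1, z2]
    have hcomp1 : HasCompactSupport (deriv h) := hcs.deriv
    have hcomp2 : HasCompactSupport (deriv (deriv h)) := hcomp1.deriv
    have hA1 : ∀ s, HasDerivAt (fun t => t ^ (q + 2) * a t * deriv h t) (A s) s := by
      intro s
      convert! ((((hasDerivAt_id s).pow (q + 2)).mul (hasDerivAt_of_contDiff_two ha s).1).mul
        (hh1 s).2) using 1
      simp [hA]
    have hB1 : ∀ s, HasDerivAt (fun t => a t * h t) (B s) s := fun s =>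
      (hasDerivAt_of_contDiff_two ha s).1.mul (hh1 s).1
    have hAcont : Continuous A := by
      have := ha.continuous
      rw [hA]; fun_prop
    have hBcont : Continuous B := by
      have := ha.continuous; have := h2.continuous
      rw [hB]; fun_prop
    have hAc : HasCompactSupport A := hcomp1.mul_left.add hcomp2.mul_left
    have hBc : HasCompactSupport B := hcs.mul_left.add hcomp1.mul_left
    have hi1 : Integrable fun s => c s * A s :=
      (hc.continuous.mul hAcont).integrable_of_hasCompactSupport hAc.mul_left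
    have hi2 : Integrable fun s => (l : ℝ) * ((c s * s ^ (q + 1)) * B s) :=
      ((continuous_const.mul ((hc.continuous.mul (continuous_id.pow _)).mul hBcont))
        ).integrable_of_hasCompactSupport ((hBc.mul_left).mul_left)
    rw [integral_add hi1 hi2, integral_const_mul] at hw
    have hc1 : ∀ s, HasDerivAt c (deriv c s) s := fun s => (hasDerivAt_of_contDiff_two hc s).1
    have i1 : ∫ s, c s * A s
        = ∫ s, h s * ((((q : ℝ) + 2) * s ^ (q + 1) * a s + s ^ (q + 2) * deriv a s) * deriv c s
            + s ^ (q + 2) * a s * deriv (deriv c) s) := by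
      rw [integral_mul_deriv_cpt (g := fun t => t ^ (q + 2) * a t * deriv h t) hc1 hA1 hcc hAcont
        hcomp1.mul_left hAc]
      have hw1 : ∀ s, HasDerivAt (fun t => t ^ (q + 2) * a t * deriv c t)
          ((((q : ℝ) + 2) * s ^ (q + 1) * a s + s ^ (q + 2) * deriv a s) * deriv c s
            + s ^ (q + 2) * a s * deriv (deriv c) s) s := by
        intro s
        convert! ((((hasDerivAt_id s).pow (q + 2)).mul (hasDerivAt_of_contDiff_two ha s).1).mul
          (hasDerivAt_of_contDiff_two hc s).2) using 1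
        simp
      have := integral_mul_deriv_cpt hw1 (fun s => (hh1 s).1)
        (by have := ha.continuous; fun_prop) hch hcs hcomp1
      rw [show (fun s => deriv c s * (s ^ (q + 2) * a s * deriv h s))
        = fun s => (s ^ (q + 2) * a s * deriv c s) * deriv h s by funext s; ring, this, neg_neg]
      exact integral_congr_ae (Eventually.of_forall fun s => by ring)
    have i2 : ∫ s, (c s * s ^ (q + 1)) * B s
        = - ∫ s, h s * (a s * (deriv c s * s ^ (q + 1) + c s * (((q : ℝ) + 1) * s ^ q))) := by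
      have hw2 : ∀ s, HasDerivAt (fun t => c t * t ^ (q + 1))
          (deriv c s * s ^ (q + 1) + c s * (((q : ℝ) + 1) * s ^ q)) s := by
        intro s
        convert! (hc1 s).mul ((hasDerivAt_id s).pow (q + 1)) using 1
        simp
      rw [integral_mul_deriv_cpt hw2 hB1 (by have := hc.continuous; fun_prop) hBcont
        hcs.mul_left hBc]
      exact congrArg Neg.neg (integral_congr_ae (Eventually.of_forall fun s => by ring))
    rw [i1, i2, mul_neg, ← sub_eq_add_neg, ← integral_const_mul] at hw
    have j1 : Integrable fun s =>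
        h s * ((((q : ℝ) + 2) * s ^ (q + 1) * a s + s ^ (q + 2) * deriv a s) * deriv c s
          + s ^ (q + 2) * a s * deriv (deriv c) s) := by
      have := ha.continuous
      exact (h2.continuous.mul (by fun_prop)).integrable_of_hasCompactSupport hcs.mul_right
    have j2 : Integrable fun s => (l : ℝ) *
        (h s * (a s * (deriv c s * s ^ (q + 1) + c s * (((q : ℝ) + 1) * s ^ q)))) := by
      have := ha.continuous; have := hc.continuous
      exact (continuous_const.mul (h2.continuous.mul (by fun_prop))).integrable_of_hasCompactSupport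
        hcs.mul_right.mul_left
    rw [← integral_sub j1 j2] at hw
    rw [← hw]
    refine integral_congr_ae (Eventually.of_forall fun s => ?_)
    simp only [hg_def]
    ring
  have hae := IsOpen.ae_eq_zero_of_integral_contDiff_smul_eq_zero (μ := volume) isOpen_Ioi
    (hgcont.locallyIntegrable.locallyIntegrableOn _) (fun h h1 h2 h3 => by
      simpa using key h h1 h2 h3)
  have hg0 : Set.EqOn g 0 (Set.Ioi 0) := by
    refine Measure.eqOn_open_of_ae_eq (μ := volume) ?_ isOpen_Ioi hgcont.continuousOn continuousOn_const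
    exact (ae_restrict_iff' measurableSet_Ioi).2 hae
  have hgr : g r = 0 := hg0 hr
  have har : 0 < a r := Real.exp_pos _
  rw [hg_def] at hgr
  simp only [show deriv a r = a r * (((n : ℝ) - 2) * deriv φ r) from (hasDerivAt_wt hφ r).deriv]
    at hgr
  rw [hqr] at hgr
  have hr' : r ≠ 0 := hr.ne'
  have key2 : r ^ (q + 2) * a r * (deriv (deriv c) r
      + (((n : ℝ) - 1) / r + ((n : ℝ) - 2) * deriv φ r) * deriv c r
      - (l : ℝ) * ((l : ℝ) + n - 2) / r ^ 2 * c r) = 0 := by
    rw [← hgr]
    field_simp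
    ring
  rcases mul_eq_zero.1 key2 with h0 | h0
  · exact absurd h0 (mul_ne_zero (pow_ne_zero _ hr') har.ne')
  · exact h0

end Vale.Agent.P225
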