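import Mathlib

/-! # P225: profiles of the warped Berger metrics and their Ricci inequalities

`t = log r`, `d = 2m+1`, `p = psi + m/d * tau`, `q = psi - tau/(2d)`.  `psi` vanishes for `t ≤ 0`, decreases to `pinf < 0`,
and pays for the variation of the Berger parameter `tau`. -/

open Real Filter Topology intervalIntegral
open scoped ContDiff

namespace Vale.Agent.P225.Prof

/-- A smooth positive part. -/
noncomputable def eta (t : ℝ) : ℝ := ∫ x in (0:ℝ)..t, smoothTransition x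

theorem hasDerivAt_eta (t : ℝ) : HasDerivAt eta (smoothTransition t) t :=
  smoothTransition.continuous.integral_hasStrictDerivAt 0 t |>.hasDerivAt

theorem contDiff_eta {n : ℕ∞} : ContDiff ℝ n eta := by
  have h : ContDiff ℝ ∞ eta := by
    refine contDiff_infty_iff_deriv.2 ⟨fun t => (hasDerivAt_eta t).differentiableAt, ?_⟩
    rw [funext fun t => (hasDerivAt_eta t).deriv]
    exact smoothTransition.contDiff
  exact h.of_le (by exact_mod_cast le_top)

theorem eta_of_nonpos {t : ℝ} (ht : t ≤ 0) : eta t = 0 := by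
  refine integral_zero_ae (Eventually.of_forall fun x hx => ?_)
  rw [Set.uIoc_of_ge ht] at hx
  exact smoothTransition.zero_of_nonpos hx.2

theorem eta_monotone : Monotone eta :=
  monotone_of_hasDerivAt_nonneg hasDerivAt_eta fun t => smoothTransition.nonneg t

theorem eta_nonneg (t : ℝ) : 0 ≤ eta t := by
  rcases le_total t 0 with h | h
  · rw [eta_of_nonpos h]
  · rw [← eta_of_nonpos le_rfl]; exact eta_monotone h

theorem eta_le {t : ℝ} (ht : 0 ≤ t) : eta t ≤ t := by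
  have h : Monotone fun x => x - eta x :=
    monotone_of_hasDerivAt_nonneg (fun x => (hasDerivAt_id x).sub (hasDerivAt_eta x))
      fun x => sub_nonneg.2 (smoothTransition.le_one x)
  have := h ht
  simp only [eta_of_nonpos le_rfl] at this
  linarith

theorem le_eta {t : ℝ} (ht : 1 ≤ t) : t - 1 ≤ eta t := by
  have h : MonotoneOn (fun x => eta x - x) (Set.Ici 1) := by
    refine monotoneOn_of_hasDerivWithinAt_nonneg (f' := fun x => smoothTransition x - 1) (convex_Ici 1)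
      (fun x _ => ((hasDerivAt_eta x).sub (hasDerivAt_id x)).continuousAt.continuousWithinAt)
      (fun x _ => ((hasDerivAt_eta x).sub (hasDerivAt_id x)).hasDerivWithinAt) fun x hx => ?_
    rw [interior_Ici] at hx
    rw [smoothTransition.one_of_one_le (le_of_lt hx), sub_self]
  have := h Set.self_mem_Ici ht ht
  have := eta_nonneg 1
  simp only at *
  linarith

/-- The radial profile. -/
noncomputable def psi (p t0 t : ℝ) : ℝ := p * (1 - (1 + eta t / t0) ^ (-(1 / 6) : ℝ))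

/-- `- psi'`. -/
noncomputable def sig (p t0 t : ℝ) : ℝ :=
  -p / (6 * t0) * (smoothTransition t * (1 + eta t / t0) ^ (-(7 / 6) : ℝ))

variable {p t0 : ℝ}

theorem base_one_le (ht0 : 0 < t0) (t : ℝ) : 1 ≤ 1 + eta t / t0 :=
  le_add_of_nonneg_right (div_nonneg (eta_nonneg t) ht0.le)

theorem base_pos (ht0 : 0 < t0) (t : ℝ) : 0 < 1 + eta t / t0 :=
  one_pos.trans_le (base_one_le ht0 t)

theorem contDiff_psi (ht0 : 0 < t0) {n : ℕ∞} : ContDiff ℝ n (psi p t0) :=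
  contDiff_const.mul (contDiff_const.sub
    ((contDiff_const.add (contDiff_eta.div_const _)).rpow_const_of_ne fun t => (base_pos ht0 t).ne'))

theorem psi_of_nonpos {t : ℝ} (ht : t ≤ 0) : psi p t0 t = 0 := by simp [psi, eta_of_nonpos ht]

theorem hasDerivAt_base (t : ℝ) : HasDerivAt (fun s => 1 + eta s / t0) (smoothTransition t / t0) t :=
  ((hasDerivAt_eta t).div_const t0).const_add 1

theorem hasDerivAt_psi (ht0 : 0 < t0) (t : ℝ) : HasDerivAt (psi p t0) (-sig p t0 t) t := by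
  refine ((((hasDerivAt_base t).rpow_const (p := (-(1 / 6) : ℝ)) (Or.inl (base_pos ht0 t).ne')).const_sub
    1).const_mul p).congr_deriv ?_
  rw [show (-(1 / 6) : ℝ) - 1 = -(7 / 6) by norm_num, sig]
  field_simp

theorem sig_nonneg (hp : p ≤ 0) (ht0 : 0 < t0) (t : ℝ) : 0 ≤ sig p t0 t :=
  mul_nonneg (div_nonneg (neg_nonneg.2 hp) (by positivity))
    (mul_nonneg (smoothTransition.nonneg t) (rpow_nonneg (base_pos ht0 t).le _))

theorem sig_le (hp : p ≤ 0) (ht0 : 0 < t0) (t : ℝ) : sig p t0 t ≤ -p / (6 * t0) :=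
  mul_le_of_le_one_right (div_nonneg (neg_nonneg.2 hp) (by positivity))
    (mul_le_one₀ (smoothTransition.le_one t) (rpow_nonneg (base_pos ht0 t).le _)
      (rpow_le_one_of_one_le_of_nonpos (base_one_le ht0 t) (by norm_num)))

theorem le_sig (hp : p ≤ 0) (ht0 : 1 ≤ t0) {t : ℝ} (ht : 1 ≤ t) :
    -p / (24 * t0) * t ^ (-(7 / 6) : ℝ) ≤ sig p t0 t := by
  have ht0' : 0 < t0 := one_pos.trans_le ht0
  have h : 1 + eta t / t0 ≤ 2 * t := by
    have : eta t / t0 ≤ t := (div_le_self (eta_nonneg t) ht0).trans (eta_le (by linarith))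
    linarith
  have h2 : (1 / 4 : ℝ) * t ^ (-(7 / 6) : ℝ) ≤ (1 + eta t / t0) ^ (-(7 / 6) : ℝ) := by
    refine le_trans ?_ (rpow_le_rpow_of_nonpos (base_pos ht0' t) h (by norm_num))
    rw [mul_rpow (by norm_num) (by linarith)]
    refine mul_le_mul_of_nonneg_right ?_ (rpow_nonneg (by linarith) _)
    rw [show (1 / 4 : ℝ) = 2 ^ (-2 : ℝ) by norm_num [rpow_neg]]
    exact rpow_le_rpow_of_exponent_le (by norm_num) (by norm_num)
  rw [sig, smoothTransition.one_of_one_le ht, one_mul, show -p / (24 * t0) * t ^ (-(7 / 6) : ℝ) =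
    -p / (6 * t0) * (1 / 4 * t ^ (-(7 / 6) : ℝ)) by ring]
  exact mul_le_mul_of_nonneg_left h2 (div_nonneg (neg_nonneg.2 hp) (by positivity))

theorem exists_deriv_sig (hp : p ≤ 0) (ht0 : 0 < t0) (t : ℝ) :
    ∃ s', HasDerivAt (sig p t0) s' t ∧ -(7 / (6 * t0)) * sig p t0 t ≤ s' := by
  have hS : 0 ≤ deriv smoothTransition t := smoothTransition.monotone.deriv_nonneg
  have hb := base_pos ht0 t
  refine ⟨_, ((((smoothTransition.contDiff (n := 1)).differentiable (by norm_num)).differentiableAt.hasDerivAt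
    (x := t)).mul ((hasDerivAt_base t).rpow_const (p := (-(7 / 6) : ℝ)) (Or.inl hb.ne'))).const_mul
      (-p / (6 * t0)), ?_⟩
  simp only [sig]
  rw [← mul_assoc (-(7 / (6 * t0))), mul_comm (-(7 / (6 * t0))) (-p / (6 * t0)), mul_assoc]
  refine mul_le_mul_of_nonneg_left ?_ (div_nonneg (neg_nonneg.2 hp) (by positivity))
  have hS0 := smoothTransition.nonneg t
  have h1 : (1 + eta t / t0) ^ (-(7 / 6) - 1 : ℝ) ≤ (1 + eta t / t0) ^ (-(7 / 6) : ℝ) :=
    rpow_le_rpow_of_exponent_le (base_one_le ht0 t) (by norm_num)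
  have h2 : smoothTransition t * (smoothTransition t / t0 * (1 + eta t / t0) ^ (-(7 / 6) - 1 : ℝ)) ≤
      smoothTransition t * (1 / t0 * (1 + eta t / t0) ^ (-(7 / 6) : ℝ)) := by
    refine mul_le_mul_of_nonneg_left (mul_le_mul (div_le_div_of_nonneg_right (smoothTransition.le_one t)
      ht0.le) h1 (rpow_nonneg hb.le _) (by positivity)) hS0
  have h3 := mul_nonneg hS (rpow_nonneg hb.le (-(7 / 6) : ℝ))
  have e : -(7 / (6 * t0)) * (smoothTransition t * (1 + eta t / t0) ^ (-(7 / 6) : ℝ)) =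
      -(7 / 6) * (smoothTransition t * (1 / t0 * (1 + eta t / t0) ^ (-(7 / 6) : ℝ))) := by ring
  rw [e]
  linarith

theorem psi_antitone (hp : p ≤ 0) (ht0 : 0 < t0) : Antitone (psi p t0) :=
  antitone_of_hasDerivAt_nonpos (hasDerivAt_psi ht0) fun t => neg_nonpos.2 (sig_nonneg hp ht0 t)

theorem psi_nonpos (hp : p ≤ 0) (ht0 : 0 < t0) (t : ℝ) : psi p t0 t ≤ 0 :=
  mul_nonpos_of_nonpos_of_nonneg hp
    (sub_nonneg.2 (rpow_le_one_of_one_le_of_nonpos (base_one_le ht0 t) (by norm_num)))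

theorem le_psi (hp : p ≤ 0) (ht0 : 0 < t0) (t : ℝ) : p ≤ psi p t0 t :=
  le_mul_of_le_one_right' hp (rpow_nonneg (base_pos ht0 t).le _)
where
  le_mul_of_le_one_right' {p x : ℝ} (hp : p ≤ 0) (hx : 0 ≤ x) : p ≤ p * (1 - x) := by nlinarith

theorem tendsto_psi (ht0 : 0 < t0) : Tendsto (psi p t0) atTop (𝓝 p) := by
  have h1 : Tendsto eta atTop atTop :=
    tendsto_atTop_mono' _ ((eventually_ge_atTop 1).mono fun t ht => le_eta ht)
      (tendsto_id.atTop_add (tendsto_const_nhds (x := (-1 : ℝ))))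
  have h2 := (tendsto_rpow_neg_atTop (show (0 : ℝ) < 1 / 6 by norm_num)).comp
    (tendsto_atTop_add_const_left atTop 1 (h1.atTop_div_const ht0))
  have h3 := (h2.const_sub 1).const_mul p
  rw [sub_zero, mul_one] at h3
  exact h3

/-! ### The three scalar expressions (`r^2` times the Ricci curvature) -/

/-- `r^2 Ric_rr`; `s = -psi'`, `s' = -psi''`, `u = tau'`. -/
noncomputable def rrE (m : ℕ) (s s' u : ℝ) : ℝ :=
  (2 * m + 1) * (s' + s - s ^ 2) - m / (2 * (2 * m + 1)) * u ^ 2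

/-- `r^2 Ric` on the fibre; `v = tau''`. -/
noncomputable def fibE (m : ℕ) (ψ s s' τ u v : ℝ) : ℝ :=
  s' - m / (2 * m + 1) * v - (-s + m / (2 * m + 1) * u) - (-s + m / (2 * m + 1) * u) ^ 2
    - 2 * m * ((-s + m / (2 * m + 1) * u) + (-s - u / (2 * (2 * m + 1)))
      + (-s + m / (2 * m + 1) * u) * (-s - u / (2 * (2 * m + 1))))
    + 2 * m * (exp (-2 * ψ) * exp (2 * (m + 1) / (2 * m + 1) * τ) - 1)

/-- `r^2 Ric` on horizontal vectors. -/
noncomputable def horE (m : ℕ) (ψ s s' τ u v : ℝ) : ℝ :=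
  s' + v / (2 * (2 * m + 1)) - (-s - u / (2 * (2 * m + 1))) - (-s - u / (2 * (2 * m + 1))) ^ 2
    - ((-s + m / (2 * m + 1) * u) + (-s - u / (2 * (2 * m + 1)))
      + (-s + m / (2 * m + 1) * u) * (-s - u / (2 * (2 * m + 1))))
    - (2 * m - 1) * (2 * (-s - u / (2 * (2 * m + 1))) + (-s - u / (2 * (2 * m + 1))) ^ 2)
    + (exp (-2 * ψ) * (exp (τ / (2 * m + 1)) * (2 * m + 2 - 2 * exp τ)) - 2 * m)

theorem rrE_nonneg {m : ℕ} {k s s' u : ℝ} (hs : 0 ≤ s) (hs' : -k * s ≤ s') (hk : k + s ≤ 1 / 2)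
    (hu : m * u ^ 2 ≤ (2 * m + 1) ^ 2 * s) : 0 ≤ rrE m s s' u := by
  have hd : (0 : ℝ) < 2 * m + 1 := by positivity
  have h1 : s / 2 ≤ s' + s - s ^ 2 := by nlinarith
  have h2 : m / (2 * (2 * m + 1)) * u ^ 2 ≤ (2 * m + 1) * (s / 2) := by
    rw [div_mul_eq_mul_div, div_le_iff₀ (by positivity)]
    linarith
  unfold rrE
  nlinarith

theorem early_nonneg {m : ℕ} {k ψ s s' : ℝ} (hm : 1 ≤ m) (hψ : ψ ≤ 0) (hs : 0 ≤ s) (hs' : -k * s ≤ s')
    (hk : k + s ≤ 1 / 2) (hs1 : s ≤ 1) : 0 ≤ fibE m ψ s s' 0 0 0 ∧ 0 ≤ horE m ψ s s' 0 0 0 := by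
  have hm' : (1 : ℝ) ≤ m := by exact_mod_cast hm
  have hE : 1 ≤ exp (-2 * ψ) := one_le_exp (by linarith)
  have key : 0 ≤ s' + s - s ^ 2 + 2 * m * (2 * s - s ^ 2) + 2 * m * (exp (-2 * ψ) - 1) := by
    have h1 : 0 ≤ s' + s - s ^ 2 := by nlinarith
    have h2 : 0 ≤ 2 * s - s ^ 2 := by nlinarith
    have := mul_nonneg (show (0 : ℝ) ≤ 2 * m by linarith) h2
    have := mul_nonneg (show (0 : ℝ) ≤ 2 * m by linarith) (sub_nonneg.2 hE)
    linarith
  constructor <;> simp only [fibE, horE, mul_zero, zero_div, exp_zero, add_zero, sub_zero, mul_one] <;>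
    linarith

theorem late_nonneg {m : ℕ} {μ δ ψ s s' τ u v : ℝ} (hm : 1 ≤ m) (hδ1 : δ ≤ 1) (hδ : 12 * δ ≤ μ)
    (hs : 0 ≤ s) (hsδ : s ≤ δ) (hs' : -δ ≤ s') (hu : |u| ≤ δ) (hv : |v| ≤ δ)
    (hf : 1 + μ ≤ exp (-2 * ψ) * exp (2 * (m + 1) / (2 * m + 1) * τ))
    (hh : 1 + μ ≤ exp (-2 * ψ) * (exp (τ / (2 * m + 1)) * (2 * m + 2 - 2 * exp τ) / (2 * m))) :
    0 ≤ fibE m ψ s s' τ u v ∧ 0 ≤ horE m ψ s s' τ u v := by
  have hm' : (1 : ℝ) ≤ m := by exact_mod_cast hm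
  have hδ0 : 0 ≤ δ := hs.trans hsδ
  have hh' : 2 * m * (1 + μ) ≤ exp (-2 * ψ) * (exp (τ / (2 * m + 1)) * (2 * m + 2 - 2 * exp τ)) := by
    have := mul_le_mul_of_nonneg_left hh (show (0 : ℝ) ≤ 2 * m by linarith)
    refine this.trans_eq ?_
    field_simp
  set a := m / (2 * m + 1 : ℝ)
  set b := 1 / (2 * (2 * m + 1 : ℝ))
  have ha : 0 ≤ a ∧ a ≤ 1 := ⟨by positivity, by rw [div_le_one (by positivity)]; linarith⟩
  have hb : 0 ≤ b ∧ b ≤ 1 := ⟨by positivity, by rw [div_le_one (by positivity)]; linarith⟩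
  have small : ∀ c x, 0 ≤ c → c ≤ 1 → |x| ≤ δ → |c * x| ≤ δ := fun c x h0 h1 hx => by
    rw [abs_mul, abs_of_nonneg h0]; nlinarith [abs_nonneg x]
  obtain ⟨au0, au1⟩ := abs_le.1 (small a u ha.1 ha.2 hu)
  obtain ⟨av0, av1⟩ := abs_le.1 (small a v ha.1 ha.2 hv)
  obtain ⟨bu0, bu1⟩ := abs_le.1 (small b u hb.1 hb.2 hu)
  obtain ⟨bv0, bv1⟩ := abs_le.1 (small b v hb.1 hb.2 hv)
  have eu : u / (2 * (2 * m + 1 : ℝ)) = b * u := by simp only [b]; ring
  have ev : v / (2 * (2 * m + 1 : ℝ)) = b * v := by simp only [b]; ring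
  have sq : ∀ x, |x| ≤ 2 * δ → x ^ 2 ≤ 4 * δ := fun x hx => by
    rw [← sq_abs]; nlinarith [abs_nonneg x]
  have hP := abs_le.2 (show -(2 * δ) ≤ -s + a * u ∧ -s + a * u ≤ 2 * δ from ⟨by linarith, by linarith⟩)
  have hQ := abs_le.2 (show -(2 * δ) ≤ -s - b * u ∧ -s - b * u ≤ 2 * δ from ⟨by linarith, by linarith⟩)
  have p2 := sq _ hP
  have q2 := sq _ hQ
  have pq : (-s + a * u) * (-s - b * u) ≤ 4 * δ := by nlinarith [sq_nonneg ((-s + a * u) - (-s - b * u))]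
  unfold fibE horE
  rw [eu, ev]
  constructor
  · have h1 : 2 * m * ((-s + a * u) + (-s - b * u) + (-s + a * u) * (-s - b * u)) ≤ 2 * m * (6 * δ) :=
      mul_le_mul_of_nonneg_left (by linarith) (by linarith)
    have h2 : 2 * m * μ ≤ 2 * m * (exp (-2 * ψ) * exp (2 * (m + 1) / (2 * m + 1) * τ) - 1) :=
      mul_le_mul_of_nonneg_left (by linarith) (by linarith)
    nlinarith
  · have h1 : (2 * (m : ℝ) - 1) * (2 * (-s - b * u) + (-s - b * u) ^ 2) ≤ (2 * m - 1) * (6 * δ) :=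
      mul_le_mul_of_nonneg_left (by linarith) (by linarith)
    nlinarith

/-! ### Margins -/

theorem exists_margin {g : ℝ → ℝ} {x0 x1 : ℝ} (hx : x0 ≤ x1) (hg : Continuous g)
    (h : ∀ x ∈ Set.Icc x0 x1, exp (2 * p) < g x) :
    ∃ ε μ : ℝ, 0 < ε ∧ 0 < μ ∧ ∀ ψ ≤ p + ε, ∀ x ∈ Set.Icc x0 x1, 1 + μ ≤ exp (-2 * ψ) * g x := by
  obtain ⟨z, hz, hmin⟩ := isCompact_Icc.exists_isMinOn (Set.nonempty_Icc.2 hx) hg.continuousOn
  have hcont : Continuous fun ψ => exp (-2 * ψ) * g z := by fun_prop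
  have hp : 1 < exp (-2 * p) * g z := by
    have := mul_lt_mul_of_pos_left (h z hz) (exp_pos (-2 * p))
    rwa [← exp_add, neg_mul, neg_add_cancel, exp_zero, ← neg_mul] at this
  set μ := (exp (-2 * p) * g z - 1) / 2 with hμdef
  have hμ : 0 < μ := by linarith
  obtain ⟨ε, hε, hball⟩ := Metric.continuousAt_iff.1 (hcont.continuousAt (x := p)) μ hμ
  refine ⟨ε / 2, μ, half_pos hε, hμ, fun ψ hψ x hx' => ?_⟩
  have h1 := hball (x := p + ε / 2) (by rw [Real.dist_eq, add_sub_cancel_left, abs_of_pos (half_pos hε)]; linarith)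
  rw [Real.dist_eq, abs_lt] at h1
  have hg0 : 0 < g z := (exp_pos _).trans (h z hz)
  calc 1 + μ ≤ exp (-2 * (p + ε / 2)) * g z := by linarith
    _ ≤ exp (-2 * ψ) * g x :=
      mul_le_mul (exp_le_exp.2 (by linarith)) (hmin hx') hg0.le (exp_pos _).le

/-- **Margins.**  The schedule `tau` may start at `t1`, must stay slow and satisfy
`tau'^2 ≤ K t^(-7/6)`. -/
theorem exists_margins {m : ℕ} (hm : 1 ≤ m) (hp : p < 0) {x0 x1 : ℝ} (hx : x0 ≤ x1)
    (hf : ∀ x ∈ Set.Icc x0 x1, exp (2 * p) < exp (2 * (m + 1) / (2 * m + 1) * x))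
    (hh : ∀ x ∈ Set.Icc x0 x1,
      exp (2 * p) < exp (x / (2 * m + 1)) * (2 * m + 2 - 2 * exp x) / (2 * m)) :
    ∃ t0 t1 δ K : ℝ, 0 < t0 ∧ 1 ≤ t1 ∧ 0 < δ ∧ 0 < K ∧ ∀ t s' x u v : ℝ,
      -(7 / (6 * t0)) * sig p t0 t ≤ s' →
      (t < t1 → x = 0 ∧ u = 0 ∧ v = 0) →
      (t1 ≤ t → x ∈ Set.Icc x0 x1 ∧ |u| ≤ δ ∧ |v| ≤ δ ∧ u ^ 2 ≤ K * t ^ (-(7 / 6) : ℝ)) →
      0 ≤ rrE m (sig p t0 t) s' u ∧ 0 ≤ fibE m (psi p t0 t) (sig p t0 t) s' x u v ∧
        0 ≤ horE m (psi p t0 t) (sig p t0 t) s' x u v := by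
  obtain ⟨ε, μ, hε, hμ, hF⟩ := exists_margin (p := p) hx (by fun_prop) hf
  obtain ⟨ε', μ', hε', hμ', hH⟩ := exists_margin (p := p) hx (by fun_prop) hh
  set δ := min (1 / 4) (min μ μ' / 12)
  have hδ : 0 < δ := lt_min (by norm_num) (div_pos (lt_min hμ hμ') (by norm_num))
  set t0 := max 7 (-p / (6 * δ))
  have h7 : 7 ≤ t0 := le_max_left _ _
  have ht0 : 0 < t0 := lt_of_lt_of_le (by norm_num) h7
  have hsmall : ∀ t, sig p t0 t ≤ δ := fun t => (sig_le hp.le ht0 t).trans (by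
    rw [div_le_iff₀ (by positivity)]
    have := (div_le_iff₀ (by positivity)).1 (le_max_right 7 (-p / (6 * δ)))
    linarith)
  have hk : ∀ t, 7 / (6 * t0) + sig p t0 t ≤ 1 / 2 := fun t => by
    have h1 : 7 / (6 * t0) ≤ 1 / 6 := by rw [div_le_iff₀ (by positivity)]; linarith
    have h2 : δ ≤ 1 / 4 := min_le_left _ _
    linarith [hsmall t]
  obtain ⟨T, hT⟩ := eventually_atTop.1
    ((tendsto_psi ht0).eventually_le_const (lt_add_of_pos_right p (lt_min hε hε')))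
  refine ⟨t0, max T 1, δ, -p / (24 * t0) * ((2 * m + 1) ^ 2 / m), ht0, le_max_right _ _, hδ,
    mul_pos (div_pos (neg_pos.2 hp) (by positivity))
      (div_pos (by positivity) (Nat.cast_pos.2 hm)), ?_⟩
  intro t s' x u v hs' hearly hlate
  have hs0 := sig_nonneg hp.le ht0 t
  rcases lt_or_ge t (max T 1) with hlt | hge
  · obtain ⟨rfl, rfl, rfl⟩ := hearly hlt
    exact ⟨rrE_nonneg hs0 hs' (hk _)
        (by simp only [ne_eq, OfNat.ofNat_ne_zero, not_false_eq_true, zero_pow, mul_zero]; positivity),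
      early_nonneg hm (psi_nonpos hp.le ht0 _) hs0 hs' (hk _)
        ((hsmall _).trans ((min_le_left _ _).trans (by norm_num)))⟩
  · obtain ⟨hx', hu, hv, hu2⟩ := hlate hge
    have hψ := hT _ ((le_max_left _ _).trans hge)
    have ht : 1 ≤ t := (le_max_right _ _).trans hge
    refine ⟨rrE_nonneg hs0 hs' (hk _) ?_, late_nonneg hm ((min_le_left _ _).trans (by norm_num))
      (μ := min μ μ') ?_ hs0 (hsmall _) ?_ hu hv ?_ ?_⟩
    · refine (mul_le_mul_of_nonneg_left hu2 (Nat.cast_nonneg m)).trans ?_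
      have h := mul_le_mul_of_nonneg_left (le_sig hp.le (le_trans (by norm_num) h7) ht)
        (sq_nonneg (2 * (m : ℝ) + 1))
      refine le_trans (le_of_eq ?_) h
      have : (m : ℝ) ≠ 0 := by positivity
      field_simp
    · have := min_le_right (1 / 4 : ℝ) (min μ μ' / 12)
      linarith
    · have h1 : 7 / (6 * t0) ≤ 1 := by linarith [hk t]
      nlinarith [hsmall t]
    · exact le_trans (by linarith [min_le_left μ μ']) (hF _ (hψ.trans (by linarith [min_le_left ε ε'])) _ hx')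
    · exact le_trans (by linarith [min_le_right μ μ']) (hH _ (hψ.trans (by linarith [min_le_right ε ε'])) _ hx')

/-- Monotonicity of the horizontal margin: it suffices to check the endpoints. -/
theorem hor_margin {m : ℕ} (hm : 1 ≤ m) {T1 T : ℝ} (h1 : 1 ≤ T) (hT : T ≤ T1) (hb : T1 < m + 1) :
    (2 * m + 2 - 2 * T1) * T1 ^ (1 / (2 * m + 1) : ℝ) ≤
      (2 * m + 2 - 2 * T) * T ^ (1 / (2 * m + 1) : ℝ) := by
  have hT0 : 0 < T := by linarith
  have hm' : (1 : ℝ) ≤ m := by exact_mod_cast hm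
  set q : ℝ := 1 / (2 * m + 1)
  have hq0 : 0 ≤ q := by positivity
  have hq1 : q ≤ 1 := by rw [div_le_one (by positivity)]; linarith
  have hB : (T1 / T) ^ q ≤ 1 + q * (T1 / T - 1) := by
    simpa using rpow_one_add_le_one_add_mul_self (s := T1 / T - 1)
      (by linarith [(one_le_div hT0).2 hT]) hq0 hq1
  have hX : T1 / T - 1 ≤ T1 - T := by
    rw [div_sub_one hT0.ne']; exact div_le_self (by linarith) h1
  have hc : 0 < 2 * m + 2 - 2 * T1 := by linarith
  have hqc : (2 * m + 2 - 2 * T1) * q ≤ 2 := by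
    simp only [q, mul_one_div]
    rw [div_le_iff₀ (by positivity)]; nlinarith
  have key : (2 * m + 2 - 2 * T1) * (T1 / T) ^ q ≤ 2 * m + 2 - 2 * T := by
    refine (mul_le_mul_of_nonneg_left (hB.trans (add_le_add le_rfl (mul_le_mul_of_nonneg_left hX hq0)))
      hc.le).trans ?_
    nlinarith [mul_le_mul_of_nonneg_right hqc (sub_nonneg.2 hT)]
  calc (2 * m + 2 - 2 * T1) * T1 ^ q = (2 * m + 2 - 2 * T1) * (T1 / T) ^ q * T ^ q := by
        rw [mul_assoc, ← mul_rpow (div_nonneg (by linarith) hT0.le) hT0.le, div_mul_cancel₀ _ hT0.ne']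
    _ ≤ _ := mul_le_mul_of_nonneg_right key (rpow_nonneg hT0.le _)

end Vale.Agent.P225.Prof
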