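import Vale.Agent.P225.Calc

/-! # Polar coordinates and projections on spherical polynomials -/

namespace Vale.Agent.P225

open MeasureTheory Filter Topology Metric

variable {n : ℕ}

/-- The unit sphere. -/
abbrev Sph (n : ℕ) : Type := sphere (0 : Euc n) 1

/-- Surface measure on the unit sphere. -/
noncomputable abbrev surf (n : ℕ) : Measure (Sph n) := (volume : Measure (Euc n)).toSphere

theorem integral_polar (hn : 0 < n) (g : Euc n → ℝ) (hg : Integrable g) :
    ∫ x, g x = ∫ r in Set.Ioi (0 : ℝ),
      r ^ (n - 1) * ∫ θ : Sph n, g (r • (θ : Euc n)) ∂surf n := by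
  haveI : Nonempty (Fin n) := ⟨⟨0, hn⟩⟩
  have hd : Module.finrank ℝ (Euc n) = n := by simp
  have hmp := (volume : Measure (Euc n)).measurePreserving_homeomorphUnitSphereProd
  rw [hd] at hmp
  have hc : MeasurableSet ({0}ᶜ : Set (Euc n)) := (measurableSet_singleton _).compl
  have h1 : ∫ x, g x = ∫ x : ({0}ᶜ : Set (Euc n)), g x ∂(Measure.comap Subtype.val volume) := by
    rw [integral_subtype_comap hc, restrict_compl_singleton]
  set G : Sph n × Set.Ioi (0 : ℝ) → ℝ := fun p => g ((p.2 : ℝ) • (p.1 : Euc n)) with hG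
  have hcomp : ∀ x : ({0}ᶜ : Set (Euc n)), G (homeomorphUnitSphereProd (Euc n) x) = g x := by
    intro x
    have hx : (x : Euc n) ≠ 0 := x.2
    simp [hG, homeomorphUnitSphereProd, smul_smul, norm_ne_zero_iff.2 hx]
  have hemb := (homeomorphUnitSphereProd (Euc n)).measurableEmbedding
  have h2 : ∫ x, g x = ∫ p, G p ∂((surf n).prod (Measure.volumeIoiPow (n - 1))) := by
    rw [h1, ← hmp.integral_comp hemb]
    exact integral_congr_ae (Eventually.of_forall fun x => (hcomp x).symm)
  have hint : Integrable G ((surf n).prod (Measure.volumeIoiPow (n - 1))) := by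
    rw [← hmp.integrable_comp_emb hemb]
    have h3 : Integrable (fun x : ({0}ᶜ : Set (Euc n)) => g x)
        (Measure.comap Subtype.val volume) := by
      have h4 : IntegrableOn g ({0}ᶜ : Set (Euc n)) := hg.integrableOn
      exact (integrableOn_iff_comap_subtypeVal hc).1 h4
    exact h3.congr (Eventually.of_forall fun x => (hcomp x).symm)
  rw [h2, integral_prod_symm G hint, Measure.volumeIoiPow]
  simp_rw [ENNReal.ofReal]
  rw [integral_withDensity_eq_integral_smul (measurable_subtype_coe.pow_const _).real_toNNReal,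
    integral_subtype_comap measurableSet_Ioi
      (fun a : ℝ => Real.toNNReal (a ^ (n - 1)) • ∫ θ : Sph n, g (a • (θ : Euc n)) ∂surf n)]
  refine setIntegral_congr_fun measurableSet_Ioi fun r hr => ?_
  rw [NNReal.smul_def, Real.coe_toNNReal _ (pow_nonneg (le_of_lt hr) _), smul_eq_mul]

theorem hasDerivAt_integral_sphere {F F' : ℝ → Sph n → ℝ}
    (hF : Continuous fun p : ℝ × Sph n => F p.1 p.2)
    (hF' : Continuous fun p : ℝ × Sph n => F' p.1 p.2)
    (hd : ∀ r θ, HasDerivAt (fun s => F s θ) (F' r θ) r) (r : ℝ) :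
    HasDerivAt (fun s => ∫ θ, F s θ ∂surf n) (∫ θ, F' r θ ∂surf n) r := by
  obtain ⟨C, hC⟩ := ((isCompact_Icc (a := r - 1) (b := r + 1)).prod
    (isCompact_univ (X := Sph n))).exists_bound_of_continuousOn hF'.continuousOn
  refine (hasDerivAt_integral_of_dominated_loc_of_deriv_le (F := F) (F' := F')
    (bound := fun _ => C) (s := Set.Icc (r - 1) (r + 1))
    (Icc_mem_nhds (by linarith) (by linarith)) ?_ ?_ ?_ ?_ (integrable_const _) ?_).2
  · exact Eventually.of_forall fun s =>
      (hF.comp (continuous_const.prodMk continuous_id)).aestronglyMeasurable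
  · exact (hF.comp (continuous_const.prodMk continuous_id)).integrable_of_hasCompactSupport
      (HasCompactSupport.of_compactSpace _)
  · exact (hF'.comp (continuous_const.prodMk continuous_id)).aestronglyMeasurable
  · exact Eventually.of_forall fun θ s hs => hC (s, θ) ⟨hs, trivial⟩
  · exact Eventually.of_forall fun θ s _ => hd s θ

theorem continuous_integral_sphere {F : ℝ → Sph n → ℝ}
    (hF : Continuous fun p : ℝ × Sph n => F p.1 p.2) :
    Continuous fun r => ∫ θ, F r θ ∂surf n := by
  refine continuous_iff_continuousAt.2 fun r => ?_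
  obtain ⟨C, hC⟩ := ((isCompact_Icc (a := r - 1) (b := r + 1)).prod
    (isCompact_univ (X := Sph n))).exists_bound_of_continuousOn hF.continuousOn
  refine continuousAt_of_dominated (bound := fun _ => C) ?_ ?_ (integrable_const _) ?_
  · exact Eventually.of_forall fun s =>
      (hF.comp (continuous_const.prodMk continuous_id)).aestronglyMeasurable
  · filter_upwards [Icc_mem_nhds (show r - 1 < r by linarith) (show r < r + 1 by linarith)]
      with s hs
    exact Eventually.of_forall fun θ => hC (s, θ) ⟨hs, trivial⟩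
  · exact Eventually.of_forall fun θ =>
      (hF.comp (continuous_id.prodMk continuous_const)).continuousAt

/-- Projection of `u` on the polynomial `p` over the sphere of radius `r`. -/
noncomputable def proj (p : Poly n) (u : Euc n → ℝ) (r : ℝ) : ℝ :=
  ∫ θ : Sph n, u (r • (θ : Euc n)) * ev p θ ∂surf n

theorem proj_continuous_integrand {g : Euc n → ℝ} (hg : Continuous g) (p : Poly n) :
    Continuous fun q : ℝ × Sph n => g (q.1 • (q.2 : Euc n)) * ev p q.2 :=
  (hg.comp (continuous_fst.smul (continuous_subtype_val.comp continuous_snd))).mul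
    ((contDiff_ev p (m := 1)).continuous.comp (continuous_subtype_val.comp continuous_snd))

theorem contDiff_proj {u : Euc n → ℝ} (hu : ContDiff ℝ 2 u) (p : Poly n) :
    ContDiff ℝ 2 (proj p u) := by
  have hu1 : ContDiff ℝ 1 (fderiv ℝ u) := hu.fderiv_right (by norm_num)
  have hc2 : Continuous (fderiv ℝ (fderiv ℝ u)) := hu1.continuous_fderiv (by norm_num)
  have hval : Continuous fun q : ℝ × Sph n => (q.2 : Euc n) :=
    continuous_subtype_val.comp continuous_snd
  have hsm : Continuous fun q : ℝ × Sph n => q.1 • (q.2 : Euc n) := continuous_fst.smul hval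
  have hev : Continuous fun q : ℝ × Sph n => ev p q.2 :=
    (contDiff_ev p (m := 1)).continuous.comp hval
  set F1 : ℝ → Sph n → ℝ := fun r θ => fderiv ℝ u (r • (θ : Euc n)) θ * ev p θ with hF1
  set F2 : ℝ → Sph n → ℝ :=
    fun r θ => fderiv ℝ (fderiv ℝ u) (r • (θ : Euc n)) θ θ * ev p θ with hF2
  have hc0 := proj_continuous_integrand hu.continuous p
  have hcF1 : Continuous fun q : ℝ × Sph n => F1 q.1 q.2 :=
    (((hu1.continuous.comp hsm).clm_apply hval)).mul hev
  have hcF2 : Continuous fun q : ℝ × Sph n => F2 q.1 q.2 :=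
    ((((hc2.comp hsm).clm_apply hval).clm_apply hval)).mul hev
  have hline : ∀ (r : ℝ) (θ : Sph n),
      HasDerivAt (fun s : ℝ => s • (θ : Euc n)) (θ : Euc n) r := by
    intro r θ
    simpa using (hasDerivAt_id r).smul_const (θ : Euc n)
  have hd1 : ∀ (r : ℝ) (θ : Sph n),
      HasDerivAt (fun s => u (s • (θ : Euc n)) * ev p θ) (F1 r θ) r := fun r θ =>
    (((hu.differentiable (by norm_num)).differentiableAt.hasFDerivAt).comp_hasDerivAt r
      (hline r θ)).mul_const _
  have hd2 : ∀ (r : ℝ) (θ : Sph n), HasDerivAt (fun s => F1 s θ) (F2 r θ) r := by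
    intro r θ
    have h := ((hu1.differentiable (by norm_num)).differentiableAt.hasFDerivAt).comp_hasDerivAt r
      (hline r θ)
    have h' := h.clm_apply (hasDerivAt_const r (θ : Euc n))
    simp only [map_zero, add_zero] at h'
    exact h'.mul_const _
  have e1 : deriv (proj p u) = fun r => ∫ θ, F1 r θ ∂surf n :=
    funext fun r => (hasDerivAt_integral_sphere hc0 hcF1 hd1 r).deriv
  have e2 : deriv (fun r => ∫ θ, F1 r θ ∂surf n) = fun r => ∫ θ, F2 r θ ∂surf n :=
    funext fun r => (hasDerivAt_integral_sphere hcF1 hcF2 hd2 r).deriv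
  rw [show (2 : WithTop ℕ∞) = 1 + 1 by norm_num, contDiff_succ_iff_deriv]
  refine ⟨fun r => (hasDerivAt_integral_sphere hc0 hcF1 hd1 r).differentiableAt,
    fun h => absurd h (by simp), ?_⟩
  rw [e1, contDiff_one_iff_deriv, e2]
  exact ⟨fun r => (hasDerivAt_integral_sphere hcF1 hcF2 hd2 r).differentiableAt,
    continuous_integral_sphere hcF2⟩

theorem abs_proj_le {u : Euc n → ℝ} (p : Poly n) :
    ∃ M, 0 ≤ M ∧ ∀ (r : ℝ) (B : ℝ), (∀ θ : Sph n, |u (r • (θ : Euc n))| ≤ B) →
      |proj p u r| ≤ M * B := by
  obtain ⟨C, hC⟩ := (isCompact_univ (X := Sph n)).exists_bound_of_continuousOn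
    (((contDiff_ev p (m := 1)).continuous.comp continuous_subtype_val).continuousOn)
  refine ⟨max C 0 * (surf n).real Set.univ, by positivity, fun r B hB => ?_⟩
  have h := norm_integral_le_of_norm_le_const (μ := surf n)
    (f := fun θ : Sph n => u (r • (θ : Euc n)) * ev p θ) (C := B * max C 0)
    (Eventually.of_forall fun θ => by
      rw [norm_mul]
      exact mul_le_mul (hB θ) ((hC θ trivial).trans (le_max_left _ _)) (norm_nonneg _)
        ((abs_nonneg _).trans (hB θ)))
  calc |proj p u r| ≤ B * max C 0 * (surf n).real Set.univ := h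
    _ = max C 0 * (surf n).real Set.univ * B := by ring

end Vale.Agent.P225
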