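import Vale.Agent.P225.Mode

/-! # Vanishing of high modes and a maximum principle -/

namespace Vale.Agent.P225

open MeasureTheory Filter Topology Metric
open scoped Laplacian

variable {n : ℕ}

theorem second_deriv_nonpos {f : ℝ → ℝ} {x : ℝ} (hcont : ContinuousAt f x)
    (hm : IsLocalMax f x) : deriv (deriv f) x ≤ 0 := by
  by_contra h
  push Not at h
  have hmin := isLocalMin_of_deriv_deriv_pos h hm.deriv_eq_zero hcont
  have hconst : f =ᶠ[𝓝 x] fun _ => f x := by
    filter_upwards [hm, hmin] with y h1 h2 using le_antisymm h1 h2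
  have h0 : deriv f =ᶠ[𝓝 x] fun _ => (0 : ℝ) := by
    filter_upwards [hconst.deriv] with y hy
    rw [hy]; exact deriv_const y (f x)
  rw [h0.deriv_eq] at h
  simp at h

theorem proj_zero (hn : 0 < n) {l : ℕ} (hl : 1 ≤ l) {p : Poly n} (hp : p.IsHomogeneous l)
    (hlap : plap n p = 0) {Φ u : Euc n → ℝ} (hΦ : ContDiff ℝ 2 Φ)
    (hrad : ∀ x y, ‖x‖ = ‖y‖ → Φ x = Φ y) (hu : ContDiff ℝ 2 u) (hharm : IsHarmonic Φ u)
    (hn2 : 2 ≤ n) : proj p u 0 = 0 := by
  have hcont : Continuous (proj p u) := (contDiff_proj hu p).continuous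
  have hconst : proj p u 0 = u 0 * ∫ θ : Sph n, ev p θ ∂surf n := by
    simp [proj, integral_const_mul]
  have h1 : proj p (fun _ => (1 : ℝ)) 1 = ∫ θ : Sph n, ev p θ ∂surf n := by simp [proj]
  have hone : IsHarmonic Φ (fun _ : Euc n => (1 : ℝ)) :=
    (isHarmonic_iff contDiff_const).2 fun x => by
      have h0 : ∀ i : Fin n, pd i (fun _ : Euc n => (1 : ℝ)) = fun _ => 0 := fun i => by
        funext y; simp [pd]
      simp only [h0]
      simp [pd]
  have hode := proj_ode hn2 hΦ hrad contDiff_const hone hl hp hlap one_pos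
  have hc : ∀ r : ℝ, proj p (fun _ : Euc n => (1 : ℝ)) r = ∫ θ : Sph n, ev p θ ∂surf n :=
    fun r => by simp [proj]
  rw [show proj p (fun _ : Euc n => (1 : ℝ)) = fun _ => ∫ θ : Sph n, ev p θ ∂surf n from funext hc]
    at hode
  have hl' : (l : ℝ) * ((l : ℝ) + n - 2) ≠ 0 := by
    have h2 : (1 : ℝ) ≤ l := by exact_mod_cast hl
    have h3 : (2 : ℝ) ≤ n := by exact_mod_cast hn2
    exact mul_ne_zero (by linarith) (by linarith)
  have : ∫ θ : Sph n, ev p θ ∂surf n = 0 := by
    simp only [deriv_const', deriv_const, mul_zero, zero_add, zero_sub, neg_eq_zero] at hode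
    simpa [hl'] using hode
  rw [hconst, this, mul_zero]

theorem proj_le_mul_pow (hn : 2 ≤ n) {Φ u : Euc n → ℝ} (hΦ : ContDiff ℝ 2 Φ)
    (hrad : ∀ x y, ‖x‖ = ‖y‖ → Φ x = Φ y) (hric : ∀ x v, 0 ≤ ricci Φ x v)
    (hu : ContDiff ℝ 2 u) (hharm : IsHarmonic Φ u) {l : ℕ} (hl : 1 ≤ l) {p : Poly n}
    (hp : p.IsHomogeneous l) (hlap : plap n p = 0) (σ : ℝ) {ρ1 r : ℝ} (hr : 0 ≤ r) (hr1 : r ≤ ρ1)
    (hρ1 : 0 < ρ1) {K : ℝ} (hK : 0 ≤ K)
    (hend : σ * proj p u ρ1 ≤ K * rdist (profile (by omega) Φ) ρ1 ^ l) :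
    σ * proj p u r ≤ K * rdist (profile (by omega) Φ) r ^ l := by
  have hn0 : 0 < n := by omega
  set φ := profile hn0 Φ with hφdef
  have hφ : ContDiff ℝ 2 φ := contDiff_profile hn0 hΦ
  have hp0 : ∀ s, 0 ≤ s → s * deriv φ s ≤ 0 := fun s hs =>
    deriv_mul_profile_nonpos hn hΦ hrad hric hs
  set c := proj p u with hc_def
  have hc : ContDiff ℝ 2 c := contDiff_proj hu p
  set R := rdist φ with hR
  set v : ℝ → ℝ := fun s => σ * c s - K * R s ^ l with hv
  have hR1 : ∀ s, HasDerivAt R (Real.exp (φ s)) s := hasDerivAt_rdist hφ.continuous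
  have hvc : Continuous v := by
    have := hc.continuous
    have : Continuous R := continuous_iff_continuousAt.2 fun s => (hR1 s).continuousAt
    rw [hv]; fun_prop
  obtain ⟨s0, hs0, hmax⟩ := (isCompact_Icc (a := (0 : ℝ)) (b := ρ1)).exists_isMaxOn
    (Set.nonempty_Icc.2 hρ1.le) hvc.continuousOn
  suffices hle : v s0 ≤ 0 by
    have := hmax (show r ∈ Set.Icc 0 ρ1 from ⟨hr, hr1⟩)
    simp only [Set.mem_setOf_eq, hv] at this ⊢
    simp only [hv] at hle
    linarith
  by_contra hpos
  push Not at hpos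
  have h0 : v 0 = 0 := by
    simp [hv, hR, rdist_zero, hc_def, proj_zero hn0 (by omega) hp hlap hΦ hrad hu hharm hn,
      show l ≠ 0 by omega]
  have h1 : v ρ1 ≤ 0 := by simp only [hv]; linarith
  have hs0pos : 0 < s0 := lt_of_le_of_ne hs0.1 fun h => by rw [← h, h0] at hpos; exact lt_irrefl _ hpos
  have hs0lt : s0 < ρ1 := lt_of_le_of_ne hs0.2 fun h => by rw [h] at hpos; linarith
  have hloc : IsLocalMax v s0 := hmax.isLocalMax (Icc_mem_nhds hs0pos hs0lt)
  obtain ⟨j, rfl⟩ : ∃ j, l = j + 1 := ⟨l - 1, by omega⟩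
  have hv1 : ∀ s, HasDerivAt v (σ * deriv c s
      - K * (((j : ℝ) + 1) * R s ^ j * Real.exp (φ s))) s := by
    intro s
    convert! ((hasDerivAt_of_contDiff_two hc s).1.const_mul σ).sub
      (((hR1 s).pow (j + 1)).const_mul K) using 1
    simp
  have hv2 : ∀ s, HasDerivAt (fun t => σ * deriv c t
      - K * (((j : ℝ) + 1) * R t ^ j * Real.exp (φ t)))
      (σ * deriv (deriv c) s
        - K * (((j : ℝ) + 1) * (((j : ℝ) * R s ^ (j - 1) * Real.exp (φ s)) * Real.exp (φ s)
          + R s ^ j * (Real.exp (φ s) * deriv φ s)))) s := by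
    intro s
    convert! ((hasDerivAt_of_contDiff_two hc s).2.const_mul σ).sub
      (((((hR1 s).pow j).const_mul ((j : ℝ) + 1)).mul
        (hasDerivAt_of_contDiff_two hφ s).1.exp).const_mul K) using 1
    simp
    left
    ring
  have hd1 : deriv v = fun t => σ * deriv c t
      - K * (((j : ℝ) + 1) * R t ^ j * Real.exp (φ t)) := funext fun s => (hv1 s).deriv
  have hA := hloc.deriv_eq_zero
  rw [hd1] at hA
  have hB := second_deriv_nonpos hvc.continuousAt hloc
  rw [hd1, (hv2 s0).deriv] at hB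
  have hode := proj_ode hn hΦ hrad hu hharm (by omega : 1 ≤ j + 1) hp hlap hs0pos
  rw [← hc_def, ← hφdef] at hode
  push_cast at hode
  have hw := mul_exp_le_rdist hφ hp0 hs0pos.le
  rw [← hR] at hw
  have hRpos : 0 < R s0 := rdist_pos hφ.continuous hs0pos
  have hneg := hp0 s0 hs0pos.le
  simp only [hv] at hpos
  set s := s0
  set e := Real.exp (φ s) with he
  have hepos : 0 < e := Real.exp_pos _
  set P := R s with hP
  set N : ℝ := (n : ℝ) with hN
  have hN2 : 2 ≤ N := by rw [hN]; exact_mod_cast hn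
  have hJ : (0 : ℝ) ≤ j := j.cast_nonneg
  have hj : (j : ℝ) * P ^ (j - 1) = (j : ℝ) * P ^ j / P := by
    rcases j with _ | i
    · simp
    · rw [Nat.succ_sub_one, pow_succ]
      field_simp
  rw [hj] at hB
  have hsup : (j : ℝ) * (s * e) ^ 2 + (N - 1) * P * (s * e) * (1 + s * deriv φ s)
      ≤ ((j : ℝ) + 1 + N - 2) * P ^ 2 := by
    have hse : 0 ≤ s * e := by positivity
    have k1 : (s * e) ^ 2 ≤ P ^ 2 := pow_le_pow_left₀ hse hw 2
    have k2 : (N - 1) * P * (s * e) * (1 + s * deriv φ s) ≤ (N - 1) * P * P := by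
      have k3 : (s * e) * (1 + s * deriv φ s) ≤ P := by
        have := mul_nonpos_of_nonneg_of_nonpos hse hneg
        linarith
      have k4 : 0 ≤ (N - 1) * P := mul_nonneg (by linarith) hRpos.le
      have := mul_le_mul_of_nonneg_left k3 k4
      linarith
    have := mul_le_mul_of_nonneg_left k1 hJ
    linarith
  have hs2 : (0 : ℝ) < s ^ 2 := pow_pos hs0pos 2
  have hmain : (((j : ℝ) + 1) * ((j : ℝ) + 1 + N - 2)) * (σ * c s - K * P ^ (j + 1))
      = s ^ 2 * (σ * deriv (deriv c) s
          - K * (((j : ℝ) + 1) * ((((j : ℝ) * P ^ j / P) * e) * e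
            + P ^ j * (e * deriv φ s))))
        + (s * (N - 1) + s ^ 2 * ((N - 2) * deriv φ s))
          * (σ * deriv c s - K * (((j : ℝ) + 1) * P ^ j * e))
        + K * ((j : ℝ) + 1) * (P ^ j / P) *
          (((j : ℝ) * (s * e) ^ 2 + (N - 1) * P * (s * e) * (1 + s * deriv φ s))
            - ((j : ℝ) + 1 + N - 2) * P ^ 2) := by
    have hs' : s ≠ 0 := hs0pos.ne'
    have hP' : P ≠ 0 := hRpos.ne'
    field_simp at hode
    field_simp
    linear_combination (-σ * P) * hode
  have t1 : s ^ 2 * (σ * deriv (deriv c) s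
      - K * (((j : ℝ) + 1) * ((((j : ℝ) * P ^ j / P) * e) * e
        + P ^ j * (e * deriv φ s)))) ≤ 0 := mul_nonpos_of_nonneg_of_nonpos hs2.le hB
  have t2 : K * ((j : ℝ) + 1) * (P ^ j / P) *
      (((j : ℝ) * (s * e) ^ 2 + (N - 1) * P * (s * e) * (1 + s * deriv φ s))
        - ((j : ℝ) + 1 + N - 2) * P ^ 2) ≤ 0 :=
    mul_nonpos_of_nonneg_of_nonpos (by positivity) (by linarith)
  simp only [] at hA
  rw [hA, mul_zero, add_zero] at hmain
  have t3 : 0 < (((j : ℝ) + 1) * ((j : ℝ) + 1 + N - 2)) * (σ * c s - K * P ^ (j + 1)) :=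
    mul_pos (mul_pos (by positivity) (by linarith)) hpos
  linarith

theorem proj_eq_zero (hn : 2 ≤ n) {Φ u : Euc n → ℝ} (hΦ : ContDiff ℝ 2 Φ)
    (hrad : ∀ x y, ‖x‖ = ‖y‖ → Φ x = Φ y) (hric : ∀ x v, 0 ≤ ricci Φ x v)
    (hcomp : Tendsto (segLength Φ) (cocompact (Euc n)) atTop)
    (hu : ContDiff ℝ 2 u) (hharm : IsHarmonic Φ u) {d : ℝ} (hd : 0 ≤ d)
    (hgrow : HasGrowth Φ d u) {l : ℕ} (hl : 1 ≤ l) (hdl : d < l) {p : Poly n}
    (hp : p.IsHomogeneous l) (hlap : plap n p = 0) {r : ℝ} (hr : 0 ≤ r) : proj p u r = 0 := by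
  have hn0 : 0 < n := by omega
  set R := rdist (profile hn0 Φ) with hR
  have hcont : Continuous (profile hn0 Φ) := (contDiff_profile hn0 hΦ).continuous
  have htop : Tendsto R atTop atTop := tendsto_rdist hn0 hrad hcomp
  obtain ⟨C, hC⟩ := hgrow
  obtain ⟨M, hM0, hM⟩ := abs_proj_le (u := u) p
  have hRr : 0 ≤ R r := by
    rcases hr.eq_or_lt with h | h
    · rw [hR, ← h, rdist_zero]
    · exact (rdist_pos hcont h).le
  have hK : ∀ᶠ ρ in atTop, |proj p u r| ≤ M * (|C| * 2 ^ d) * R ρ ^ (d - l) * R r ^ l := by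
    filter_upwards [htop.eventually_ge_atTop 1, eventually_ge_atTop (max r 1)] with ρ h1 h2
    have hρ : r ≤ ρ := (le_max_left _ _).trans h2
    have hρ0 : 0 < ρ := lt_of_lt_of_le one_pos ((le_max_right _ _).trans h2)
    have hB : ∀ θ : Sph n, |u (ρ • (θ : Euc n))| ≤ |C| * 2 ^ d * R ρ ^ d := by
      intro θ
      refine (hC _).trans ?_
      rw [segLength_eq hn0 hrad, norm_smul, norm_eq_of_mem_sphere θ, mul_one, Real.norm_eq_abs,
        abs_of_pos hρ0, mul_assoc, ← Real.mul_rpow (by norm_num) (by linarith)]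
      calc C * (1 + R ρ) ^ d ≤ |C| * (1 + R ρ) ^ d :=
            mul_le_mul_of_nonneg_right (le_abs_self C) (Real.rpow_nonneg (by linarith) _)
        _ ≤ |C| * (2 * R ρ) ^ d :=
            mul_le_mul_of_nonneg_left (Real.rpow_le_rpow (by linarith) (by linarith) hd)
              (abs_nonneg C)
    set K := M * (|C| * 2 ^ d) * R ρ ^ (d - l) with hKdef
    have hKnn : 0 ≤ K := by
      have : 0 ≤ R ρ := by linarith
      positivity
    have hend : |proj p u ρ| ≤ K * R ρ ^ l := by
      refine (hM ρ _ hB).trans (le_of_eq ?_)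
      rw [hKdef, Real.rpow_sub (by linarith), Real.rpow_natCast]
      have : R ρ ^ l ≠ 0 := pow_ne_zero _ (by linarith)
      field_simp
    have e1 := proj_le_mul_pow hn hΦ hrad hric hu hharm hl hp hlap 1 hr hρ hρ0 hKnn
      (by rw [one_mul]; exact (le_abs_self _).trans hend)
    have e2 := proj_le_mul_pow hn hΦ hrad hric hu hharm hl hp hlap (-1) hr hρ hρ0 hKnn
      (by rw [neg_one_mul]; exact (neg_le_abs _).trans hend)
    rw [← hR] at e1 e2
    exact abs_le.2 ⟨by linarith, by linarith⟩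
  have hlim : Tendsto (fun ρ => M * (|C| * 2 ^ d) * R ρ ^ (d - l) * R r ^ l) atTop (𝓝 0) := by
    have h := (tendsto_rpow_neg_atTop (show (0 : ℝ) < (l : ℝ) - d by linarith)).comp htop
    have h' := (h.const_mul (M * (|C| * 2 ^ d))).mul_const (R r ^ l)
    simpa [neg_sub] using h'
  exact abs_nonpos_iff.1 (ge_of_tendsto hlim hK)

theorem eq_zero_of_eq_zero_sphere (hn : 0 < n) {Φ u : Euc n → ℝ} (hΦ : ContDiff ℝ 2 Φ)
    (hu : ContDiff ℝ 2 u) (hharm : IsHarmonic Φ u) {m : ℝ}
    (h0 : ∀ x, ‖x‖ = m → u x ≤ 0) : ∀ x, ‖x‖ ≤ m → u x ≤ 0 := by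
  intro x0 hx0
  set i0 : Fin n := ⟨0, hn⟩ with hi0
  have hΦ' : Continuous (pd i0 Φ) := (contDiff_pd (m := 1) i0 hΦ).continuous
  obtain ⟨B, hB⟩ := (isCompact_closedBall (0 : Euc n) m).exists_bound_of_continuousOn
    hΦ'.continuousOn
  set K := |((n : ℝ) - 2)| * |B| + 1 with hK
  set E : Euc n → ℝ := fun x => Real.exp (K * x i0) with hE
  have hEc : ContDiff ℝ 2 E := Real.contDiff_exp.comp
    (contDiff_const.mul (EuclideanSpace.proj i0 : Euc n →L[ℝ] ℝ).contDiff)
  have hEpd : ∀ i x, pd i E x = E x * (K * if i0 = i then 1 else 0) := by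
    intro i x
    have h := ((hasFDerivAt_coord i0 x).const_mul K).exp
    simp only [pd, hE, h.fderiv]
    simp [unit_apply]
  have hEbound : ∀ x : Euc n, ‖x‖ ≤ m → E x ≤ Real.exp (K * m) := by
    intro x hx
    refine Real.exp_le_exp.2 (mul_le_mul_of_nonneg_left ?_ (by positivity))
    exact (le_abs_self _).trans ((PiLp.norm_apply_le x i0).trans hx)
  have hm0 : 0 ≤ m := (norm_nonneg _).trans hx0
  refine le_of_forall_pos_le_add fun δ hδ => ?_
  set ε := δ / Real.exp (K * m) with hε
  have hεpos : 0 < ε := div_pos hδ (Real.exp_pos _)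
  set v : Euc n → ℝ := fun x => u x + ε * E x with hv
  have hvc : ContDiff ℝ 2 v := hu.add (contDiff_const.mul hEc)
  obtain ⟨z, hz, hmax⟩ := (isCompact_closedBall (0 : Euc n) m).exists_isMaxOn
    (nonempty_closedBall.2 hm0) hvc.continuous.continuousOn
  have hz' : ‖z‖ ≤ m := by simpa using hz
  have hle : ∀ x, ‖x‖ ≤ m → v x ≤ v z := fun x hx => hmax (by simpa using hx)
  have hzm : ‖z‖ = m := by
    by_contra hne
    have hlt : ‖z‖ < m := lt_of_le_of_ne hz' hne
    have hloc : IsLocalMax v z := by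
      filter_upwards [(isOpen_lt continuous_norm continuous_const).mem_nhds hlt] with y hy
        using hle y (le_of_lt hy)
    have hgrad : ∀ i, pd i v z = 0 := fun i => by simp [pd, hloc.fderiv_eq_zero]
    have hdiag : ∀ i, pd i (pd i v) z ≤ 0 := by
      intro i
      have hline : ∀ t : ℝ, HasDerivAt (fun t : ℝ => z + t • unit i) (unit i) t := by
        intro t; simpa using ((hasDerivAt_id t).smul_const (unit i)).const_add z
      set f : ℝ → ℝ := fun t => v (z + t • unit i) with hf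
      have hf1 : ∀ t, HasDerivAt f (pd i v (z + t • unit i)) t := fun t =>
        ((hvc.differentiable (by norm_num)).differentiableAt.hasFDerivAt).comp_hasDerivAt t (hline t)
      have hp1 : ContDiff ℝ 1 (pd i v) := contDiff_pd (m := 1) i hvc
      have hf2 : HasDerivAt (fun t : ℝ => pd i v (z + t • unit i)) (pd i (pd i v) z) (0 : ℝ) := by
        have := ((hp1.differentiable (by norm_num)).differentiableAt
          (x := z + (0 : ℝ) • unit i)).hasFDerivAt.comp_hasDerivAt 0 (hline 0)
        simpa [pd, Function.comp_def] using this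
      have hfm : IsLocalMax f 0 := by
        have hz0 : z = z + (0 : ℝ) • unit i := by simp
        exact IsLocalMax.comp_continuous (g := fun t : ℝ => z + t • unit i) (by rw [← hz0]; exact hloc)
          (hline 0).continuousAt
      have := second_deriv_nonpos (hf1 0).continuousAt hfm
      rw [show deriv f = fun t => pd i v (z + t • unit i) from funext fun t => (hf1 t).deriv,
        hf2.deriv] at this
      exact this
    have hv_pd : ∀ i, pd i v = fun x => pd i u x + ε * pd i E x := by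
      intro i; funext x
      have h := ((hu.differentiable (by norm_num)).differentiableAt (x := x)).hasFDerivAt.add
        (((hEc.differentiable (by norm_num)).differentiableAt (x := x)).hasFDerivAt.const_mul ε)
      simp only [pd, hv]
      rw [show (fun x => u x + ε * E x) = u + fun x => ε * E x from rfl, h.fderiv]
      simp
    have hpp : ∀ i, pd i (pd i v) z
        = pd i (pd i u) z + ε * (E z * K ^ 2 * if i0 = i then 1 else 0) := by
      intro i
      rw [hv_pd]
      have d1 : DifferentiableAt ℝ (pd i u) z :=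
        ((contDiff_pd (m := 1) i hu).differentiable (by norm_num)).differentiableAt
      have d2 : DifferentiableAt ℝ (pd i E) z :=
        ((contDiff_pd (m := 1) i hEc).differentiable (by norm_num)).differentiableAt
      rw [pd_add d1 (d2.const_mul ε), pd_mul (differentiableAt_const _) d2,
        show pd i E = fun x => E x * (K * if i0 = i then 1 else 0) from funext (hEpd i),
        pd_mul (hEc.differentiable (by norm_num)).differentiableAt (differentiableAt_const _), hEpd]
      split_ifs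
      · simp [pd]
        left
        ring
      · simp [pd]
    have hsum : ∀ i, ε * (E z * K ^ 2 * if i0 = i then 1 else 0)
        + ((n : ℝ) - 2) * (pd i Φ z * (ε * (E z * (K * if i0 = i then 1 else 0))))
        + (pd i (pd i u) z + ((n : ℝ) - 2) * (pd i Φ z * pd i u z)) ≤ 0 := by
      intro i
      have h1 := hdiag i
      have h2 := hgrad i
      rw [hpp] at h1
      rw [hv_pd] at h2
      simp only [hEpd] at h2
      have : pd i Φ z * pd i u z
          + pd i Φ z * (ε * (E z * (K * if i0 = i then 1 else 0))) = 0 := by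
        rw [← mul_add, h2, mul_zero]
      have := congrArg (fun t => ((n : ℝ) - 2) * t) this
      simp only [mul_add, mul_zero] at this
      linarith
    have h := Finset.sum_le_sum (s := Finset.univ) fun i _ => hsum i
    rw [Finset.sum_add_distrib, (isHarmonic_iff hu).1 hharm z, add_zero,
      Finset.sum_eq_single_of_mem i0 (Finset.mem_univ _)] at h
    swap
    · intro i _ hi; simp [Ne.symm hi]
    simp only [Finset.sum_const_zero, if_true, mul_one] at h
    have hb : |((n : ℝ) - 2) * pd i0 Φ z| ≤ K - 1 := by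
      rw [abs_mul, hK, add_sub_cancel_right]
      exact mul_le_mul_of_nonneg_left ((hB z (by simpa using hz)).trans (le_abs_self B))
        (abs_nonneg _)
    have hEz : 0 < E z := Real.exp_pos _
    have hKpos : 0 < K := by positivity
    have hpos : 0 < ε * E z * K * (K + ((n : ℝ) - 2) * pd i0 Φ z) := by
      have := (abs_le.1 hb).1
      exact mul_pos (by positivity) (by linarith)
    linarith
  have h1 : v x0 ≤ v z := hle x0 hx0
  have h2 : ε * E z ≤ δ := by
    calc ε * E z ≤ ε * Real.exp (K * m) := mul_le_mul_of_nonneg_left (hEbound z hz') hεpos.le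
      _ = δ := div_mul_cancel₀ _ (Real.exp_pos _).ne'
  have h3 : 0 < ε * E x0 := mul_pos hεpos (Real.exp_pos _)
  have h4 := h0 z hzm
  simp only [hv] at h1
  linarith

end Vale.Agent.P225
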